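import Vale.Agent.P301.H395.Ctr
import Mathlib.LinearAlgebra.Matrix.NonsingularInverse

/-!
# P301, package N3-M: Cramer's rule modulo a decomposable form, in dimension six
-/

open scoped Matrix
open Vale.Agent.P299 Vale.Agent.P299.IX Vale.Agent.P299.IX.Fock

noncomputable section

namespace Vale.Agent.P301.H395

/-- the six covectors -/
def six (a t : Fin 3 → Fin 6 → ℂ) : Matrix (Fin 6) (Fin 6) ℂ :=
  Matrix.of fun p l => (![a 0, a 1, a 2, t 0, t 1, t 2] l) p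

theorem ev_univ_six : (ev (Finset.univ : FI 6) : FI 6 → ℂ) =
    eps 0 *ᵥ (eps 1 *ᵥ (eps 2 *ᵥ (eps 3 *ᵥ (eps 4 *ᵥ (eps 5 *ᵥ ev ∅))))) := by
  rw [eps_ev_min (l := (5 : Fin 6)) (I := ∅) (by simp),
    eps_ev_min (l := (4 : Fin 6)) (by decide), eps_ev_min (l := (3 : Fin 6)) (by decide),
    eps_ev_min (l := (2 : Fin 6)) (by decide), eps_ev_min (l := (1 : Fin 6)) (by decide),
    eps_ev_min (l := (0 : Fin 6)) (by decide)]
  congr 1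

theorem prod_six (a t : Fin 3 → Fin 6 → ℂ) :
    epsV (a 0) *ᵥ (epsV (a 1) *ᵥ (epsV (a 2) *ᵥ dec3 t)) =
      (six a t).det • (ev (Finset.univ : FI 6) : FI 6 → ℂ) := by
  rw [← lam_ev_univ, ev_univ_six, lam_eps_mulVec, lam_eps_mulVec, lam_eps_mulVec, lam_eps_mulVec,
    lam_eps_mulVec, lam_eps_mulVec, lam_ev_empty]
  rfl

theorem tp_six (a t : Fin 3 → Fin 6 → ℂ) :
    tp (epsV (a 0) *ᵥ (epsV (a 1) *ᵥ (epsV (a 2) *ᵥ dec3 t))) = (six a t).det := by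
  rw [prod_six, tp_smul, tp]
  simp [ev]

/-- the six covectors are a basis -/
theorem exists_basis {a t : Fin 3 → Fin 6 → ℂ}
    (h : tp (epsV (a 0) *ᵥ (epsV (a 1) *ᵥ (epsV (a 2) *ᵥ dec3 t))) ≠ 0) (w : Fin 6 → ℂ) :
    ∃ c e : Fin 3 → ℂ, w = (∑ j, c j • a j) + ∑ j, e j • t j := by
  rw [tp_six] at h
  have h1 : (six a t) *ᵥ ((six a t)⁻¹ *ᵥ w) = w := by
    rw [Matrix.mulVec_mulVec, Matrix.mul_nonsing_inv _ (isUnit_iff_ne_zero.2 h), Matrix.one_mulVec]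
  set v := (six a t)⁻¹ *ᵥ w with hv
  refine ⟨![v 0, v 1, v 2], ![v 3, v 4, v 5], ?_⟩
  rw [← h1, mulVec_eq_sum_smul]
  simp only [Fin.sum_univ_six, Fin.sum_univ_three]
  funext p
  simp only [six, Matrix.of_apply, Pi.add_apply, Pi.smul_apply, smul_eq_mul]
  show v 0 * a 0 p + v 1 * a 1 p + v 2 * a 2 p + v 3 * t 0 p + v 4 * t 1 p + v 5 * t 2 p =
    v 0 * a 0 p + v 1 * a 1 p + v 2 * a 2 p + (v 3 * t 0 p + v 4 * t 1 p + v 5 * t 2 p)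
  ring

theorem epsV_comb (c e : Fin 3 → ℂ) (a t : Fin 3 → Fin 6 → ℂ) (x : FI 6 → ℂ) :
    epsV ((∑ j, c j • a j) + ∑ j, e j • t j) *ᵥ x =
      (∑ j, c j • (epsV (a j) *ᵥ x)) + ∑ j, e j • (epsV (t j) *ᵥ x) := by
  rw [epsV_add, epsV_sum, epsV_sum, Matrix.add_mulVec, Matrix.sum_mulVec, Matrix.sum_mulVec]
  simp only [epsV_smul, Matrix.smul_mulVec]

/-- Cramer's rule -/
theorem cramer {a t : Fin 3 → Fin 6 → ℂ} {u : Fin 3 → FI 6 → ℂ}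
    (hu : ∀ b, u b = epsV (a b) *ᵥ dec3 t)
    (h : tp (epsV (a 0) *ᵥ (epsV (a 1) *ᵥ (epsV (a 2) *ᵥ dec3 t))) ≠ 0) (w : Fin 6 → ℂ) :
    tp (epsV (a 0) *ᵥ (epsV (a 1) *ᵥ (epsV (a 2) *ᵥ dec3 t))) • (epsV w *ᵥ dec3 t) =
      tp (epsV w *ᵥ (epsV (a 1) *ᵥ (epsV (a 2) *ᵥ dec3 t))) • u 0 +
      tp (epsV (a 0) *ᵥ (epsV w *ᵥ (epsV (a 2) *ᵥ dec3 t))) • u 1 +
      tp (epsV (a 0) *ᵥ (epsV (a 1) *ᵥ (epsV w *ᵥ dec3 t))) • u 2 := by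
  obtain ⟨c, e, rfl⟩ := exists_basis h w
  set D := tp (epsV (a 0) *ᵥ (epsV (a 1) *ᵥ (epsV (a 2) *ᵥ dec3 t))) with hD
  have ht : ∀ j, epsV (t j) *ᵥ dec3 t = 0 := epsV_dec3 t
  have hta : ∀ j b, epsV (t j) *ᵥ (epsV (a b) *ᵥ dec3 t) = 0 := fun j b => epsV_ideal (a b) j
  have htaa : ∀ j b c, epsV (t j) *ᵥ (epsV (a b) *ᵥ (epsV (a c) *ᵥ dec3 t)) = 0 := by
    intro j b c
    rw [epsV_comm_mulVec, hta, Matrix.mulVec_zero, neg_zero]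
  have haa : ∀ b, epsV (a b) *ᵥ (epsV (a b) *ᵥ dec3 t) = 0 := fun b => epsV_sq_mulVec _ _
  have h0 : epsV ((∑ j, c j • a j) + ∑ j, e j • t j) *ᵥ dec3 t = ∑ j, c j • u j := by
    rw [epsV_comb]
    simp only [ht, smul_zero, Finset.sum_const_zero, add_zero, ← hu]
  have h1 : tp (epsV ((∑ j, c j • a j) + ∑ j, e j • t j) *ᵥ
      (epsV (a 1) *ᵥ (epsV (a 2) *ᵥ dec3 t))) = c 0 * D := by
    rw [epsV_comb]
    simp only [htaa, smul_zero, Finset.sum_const_zero, add_zero, Fin.sum_univ_three]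
    rw [epsV_sq_mulVec, epsV_comm_mulVec (a 2) (a 1), epsV_sq_mulVec, Matrix.mulVec_zero, neg_zero,
      smul_zero, smul_zero, add_zero, add_zero, tp_smul]
  have h2 : tp (epsV (a 0) *ᵥ (epsV ((∑ j, c j • a j) + ∑ j, e j • t j) *ᵥ
      (epsV (a 2) *ᵥ dec3 t))) = c 1 * D := by
    rw [epsV_comb]
    simp only [hta, smul_zero, Finset.sum_const_zero, add_zero, Fin.sum_univ_three]
    rw [epsV_sq_mulVec, smul_zero, add_zero, Matrix.mulVec_add, Matrix.mulVec_smul,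
      Matrix.mulVec_smul, epsV_sq_mulVec, smul_zero, zero_add, tp_smul]
  have h3 : tp (epsV (a 0) *ᵥ (epsV (a 1) *ᵥ
      (epsV ((∑ j, c j • a j) + ∑ j, e j • t j) *ᵥ dec3 t))) = c 2 * D := by
    have e1 : epsV (a 0) *ᵥ (epsV (a 1) *ᵥ (epsV (a 0) *ᵥ dec3 t)) = 0 := by
      rw [epsV_comm_mulVec (a 1) (a 0), Matrix.mulVec_neg, epsV_sq_mulVec, neg_zero]
    rw [h0, Fin.sum_univ_three, hu 0, hu 1, hu 2]
    simp only [Matrix.mulVec_add, Matrix.mulVec_smul, haa, e1, smul_zero, zero_add,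
      Matrix.mulVec_zero, tp_smul]
    rw [hD]
  rw [h1, h2, h3, h0, Fin.sum_univ_three, smul_add, smul_add, smul_smul, smul_smul, smul_smul]
  rw [mul_comm D, mul_comm D, mul_comm D]

/-- the vectors which are multiples of `β` -/
def Hk (u : Fin 3 → FI 6 → ℂ) (k : Fin 6) : Fin 3 → FI 6 → ℂ :=
  ![-ctr (eps k *ᵥ u 2) (u 1), ctr (eps k *ᵥ u 2) (u 0), -ctr (eps k *ᵥ u 1) (u 0)]

theorem Hk_dec {a t : Fin 3 → Fin 6 → ℂ} {u : Fin 3 → FI 6 → ℂ}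
    (hu : ∀ b, u b = epsV (a b) *ᵥ dec3 t)
    (h : tp (epsV (a 0) *ᵥ (epsV (a 1) *ᵥ (epsV (a 2) *ᵥ dec3 t))) ≠ 0) :
    ∃ η : Fin 6 → Fin 3 → ℂ, (∀ k j, Hk u k j = η k j • dec3 t) ∧
      ∀ k, tp (epsV (a 0) *ᵥ (epsV (a 1) *ᵥ (epsV (a 2) *ᵥ dec3 t))) • (eps k *ᵥ dec3 t) =
        ∑ j, η k j • u j := by
  have key : ∀ k b c, ctr (eps k *ᵥ u b) (u c) = tp (epsV (a c) *ᵥ (eps k *ᵥ u b)) • dec3 t := by
    intro k b c
    rw [hu c]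
    refine ctr_dec3 (fun j => ?_) _
    rw [hu b]
    exact epsV_ideal_eps k (a b) j
  have hw : ∀ k, (eps k : FM 6) = epsV (Pi.single k 1) := fun k => (epsV_single k).symm
  refine ⟨fun k => ![tp (epsV (Pi.single k 1) *ᵥ (epsV (a 1) *ᵥ (epsV (a 2) *ᵥ dec3 t))),
    tp (epsV (a 0) *ᵥ (epsV (Pi.single k 1) *ᵥ (epsV (a 2) *ᵥ dec3 t))),
    tp (epsV (a 0) *ᵥ (epsV (a 1) *ᵥ (epsV (Pi.single k 1) *ᵥ dec3 t)))], ?_, ?_⟩
  · intro k j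
    fin_cases j
    · show -ctr (eps k *ᵥ u 2) (u 1) =
        tp (epsV (Pi.single k 1) *ᵥ (epsV (a 1) *ᵥ (epsV (a 2) *ᵥ dec3 t))) • dec3 t
      rw [key, hu 2, hw, epsV_comm_mulVec (a 1), tp_neg, neg_smul, neg_neg]
    · show ctr (eps k *ᵥ u 2) (u 0) =
        tp (epsV (a 0) *ᵥ (epsV (Pi.single k 1) *ᵥ (epsV (a 2) *ᵥ dec3 t))) • dec3 t
      rw [key, hu 2, hw]
    · show -ctr (eps k *ᵥ u 1) (u 0) =
        tp (epsV (a 0) *ᵥ (epsV (a 1) *ᵥ (epsV (Pi.single k 1) *ᵥ dec3 t))) • dec3 t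
      rw [key, hu 1, hw, epsV_comm_mulVec (a 1) (Pi.single k 1), Matrix.mulVec_neg, tp_neg,
        neg_smul]
  · intro k
    rw [hw, cramer hu h (Pi.single k 1), Fin.sum_univ_three]
    rfl

/-! ### change of the factor -/

theorem rescale {n : ℕ} {t a : Fin 3 → Fin n → ℂ} {u : Fin 3 → FI n → ℂ} {T : FI n → ℂ} {τ : ℂ}
    (hτ : τ ≠ 0) (hT : T = τ • dec3 t) (hu : ∀ b, u b = epsV (a b) *ᵥ dec3 t) :
    ∃ t' a' : Fin 3 → Fin n → ℂ, T = dec3 t' ∧ ∀ b, u b = epsV (a' b) *ᵥ dec3 t' := by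
  refine ⟨![τ • t 0, t 1, t 2], fun b => τ⁻¹ • a b, ?_, fun b => ?_⟩
  · rw [hT]
    show _ = epsV (τ • t 0) *ᵥ (epsV (t 1) *ᵥ (epsV (t 2) *ᵥ ev ∅))
    rw [epsV_smul, Matrix.smul_mulVec]
    rfl
  · have h1 : dec3 ![τ • t 0, t 1, t 2] = τ • dec3 t := by
      show epsV (τ • t 0) *ᵥ (epsV (t 1) *ᵥ (epsV (t 2) *ᵥ ev ∅)) = _
      rw [epsV_smul, Matrix.smul_mulVec]
      rfl
    rw [h1, hu b, Matrix.mulVec_smul, epsV_smul, Matrix.smul_mulVec, smul_smul,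
      mul_inv_cancel₀ hτ, one_smul]

/-- equality of tensors of rank one -/
theorem par_of_tensor {K : Type*} {T β : K → ℂ} {g c : ℂ} (hc : c ≠ 0) (hβ : β ≠ 0)
    (h : ∀ I J, g * T I * T J = c * (β I * β J)) : ∃ τ : ℂ, τ ≠ 0 ∧ T = τ • β ∧ g ≠ 0 := by
  obtain ⟨M, hM⟩ := Function.ne_iff.1 hβ
  have hM' : β M ≠ 0 := hM
  have h1 : g * T M * T M ≠ 0 := by
    rw [h]
    exact mul_ne_zero hc (mul_ne_zero hM' hM')
  have hg : g ≠ 0 := by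
    rintro rfl
    simp at h1
  have hTM : T M ≠ 0 := by
    intro h2
    rw [h2] at h1
    simp at h1
  refine ⟨c * β M / (g * T M), div_ne_zero (mul_ne_zero hc hM') (mul_ne_zero hg hTM), ?_, hg⟩
  funext I
  rw [Pi.smul_apply, smul_eq_mul, div_mul_eq_mul_div, eq_div_iff (mul_ne_zero hg hTM)]
  have h3 := h I M
  linear_combination h3

end Vale.Agent.P301.H395
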