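import Vale.Agent.P299.H835.IX.Fock

/-!
# P301, package N3-M: pointwise algebra

Contraction of a vector of the exterior algebra with the covector `p ↦ (e_p ∧ Y)_univ`.
-/

open scoped Matrix
open Vale.Agent.P299 Vale.Agent.P299.IX Vale.Agent.P299.IX.Fock

noncomputable section

namespace Vale.Agent.P301.H395

variable {n : ℕ}

/-- the coefficient of the volume form -/
def tp (Y : FI n → ℂ) : ℂ := Y Finset.univ

theorem tp_add (a b : FI n → ℂ) : tp (a + b) = tp a + tp b := rfl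

theorem tp_smul (c : ℂ) (a : FI n → ℂ) : tp (c • a) = c * tp a := rfl

theorem tp_neg (a : FI n → ℂ) : tp (-a) = -tp a := rfl

theorem tp_zero : tp (0 : FI n → ℂ) = 0 := rfl

theorem tp_sum {α : Type*} (s : Finset α) (f : α → FI n → ℂ) :
    tp (∑ i ∈ s, f i) = ∑ i ∈ s, tp (f i) := Finset.sum_apply _ _ _

/-- `v` contracted with the covector `p ↦ (e_p ∧ Y)_univ` -/
def ctr (Y v : FI n → ℂ) : FI n → ℂ := ∑ p, tp (eps p *ᵥ Y) • (iot p *ᵥ v)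

/-- the vector `p ↦ (e_p ∧ Y)_univ` -/
def cv (Y : FI n → ℂ) : Fin n → ℂ := fun p => tp (eps p *ᵥ Y)

theorem ctr_eq (Y v : FI n → ℂ) : ctr Y v = iotV (cv Y) *ᵥ v := by
  unfold ctr iotV cv
  rw [Matrix.sum_mulVec]
  exact Finset.sum_congr rfl fun p _ => by rw [Matrix.smul_mulVec]

theorem cv_add (Y Y' : FI n → ℂ) : cv (Y + Y') = cv Y + cv Y' := by
  funext p
  simp only [cv, Pi.add_apply, Matrix.mulVec_add, tp_add]

theorem cv_smul (c : ℂ) (Y : FI n → ℂ) : cv (c • Y) = c • cv Y := by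
  funext p
  simp only [cv, Pi.smul_apply, Matrix.mulVec_smul, tp_smul, smul_eq_mul]

theorem tp_epsV (a : Fin n → ℂ) (Y : FI n → ℂ) : tp (epsV a *ᵥ Y) = a ⬝ᵥ cv Y := by
  unfold epsV cv dotProduct
  rw [Matrix.sum_mulVec, tp_sum]
  exact Finset.sum_congr rfl fun p _ => by rw [Matrix.smul_mulVec, tp_smul]

/-- the product of three covectors -/
def dec3 (t : Fin 3 → Fin n → ℂ) : FI n → ℂ :=
  epsV (t 0) *ᵥ (epsV (t 1) *ᵥ (epsV (t 2) *ᵥ ev ∅))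

theorem iotV_epsV_mulVec (v w : Fin n → ℂ) (x : FI n → ℂ) :
    iotV v *ᵥ (epsV w *ᵥ x) = (v ⬝ᵥ w) • x - epsV w *ᵥ (iotV v *ᵥ x) := by
  have h1 := congrArg (· *ᵥ x) (iotV_epsV v w)
  simp only [Matrix.add_mulVec, ← Matrix.mulVec_mulVec, Matrix.smul_mulVec,
    Matrix.one_mulVec] at h1
  rw [eq_sub_iff_add_eq, h1]

theorem epsV_sq_mulVec (v : Fin n → ℂ) (x : FI n → ℂ) : epsV v *ᵥ (epsV v *ᵥ x) = 0 := by
  rw [Matrix.mulVec_mulVec, epsV_sq, Matrix.zero_mulVec]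

theorem epsV_comm_mulVec (v w : Fin n → ℂ) (x : FI n → ℂ) :
    epsV v *ᵥ (epsV w *ᵥ x) = -(epsV w *ᵥ (epsV v *ᵥ x)) := by
  rw [Matrix.mulVec_mulVec, Matrix.mulVec_mulVec, epsV_epsV, Matrix.neg_mulVec]

theorem eps_epsV_mulVec (l : Fin n) (w : Fin n → ℂ) (x : FI n → ℂ) :
    eps l *ᵥ (epsV w *ᵥ x) = -(epsV w *ᵥ (eps l *ᵥ x)) := by
  rw [Matrix.mulVec_mulVec, Matrix.mulVec_mulVec, eps_epsV, Matrix.neg_mulVec]

theorem epsV_eps_mulVec (l : Fin n) (w : Fin n → ℂ) (x : FI n → ℂ) :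
    epsV w *ᵥ (eps l *ᵥ x) = -(eps l *ᵥ (epsV w *ᵥ x)) := by
  rw [eps_epsV_mulVec, neg_neg]

/-- a covector of the span annihilates -/
theorem epsV_dec3 (t : Fin 3 → Fin n → ℂ) (j : Fin 3) : epsV (t j) *ᵥ dec3 t = 0 := by
  unfold dec3
  fin_cases j
  · exact epsV_sq_mulVec _ _
  · show epsV (t 1) *ᵥ (epsV (t 0) *ᵥ (epsV (t 1) *ᵥ (epsV (t 2) *ᵥ ev ∅))) = 0
    rw [epsV_comm_mulVec, epsV_sq_mulVec, Matrix.mulVec_zero, neg_zero]
  · show epsV (t 2) *ᵥ (epsV (t 0) *ᵥ (epsV (t 1) *ᵥ (epsV (t 2) *ᵥ ev ∅))) = 0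
    rw [epsV_comm_mulVec, epsV_comm_mulVec (t 2) (t 1), epsV_sq_mulVec, Matrix.mulVec_zero, neg_zero,
      Matrix.mulVec_zero, neg_zero]

theorem iotV_dec3 {t : Fin 3 → Fin n → ℂ} {w : Fin n → ℂ} (h : ∀ j, w ⬝ᵥ t j = 0) :
    iotV w *ᵥ dec3 t = 0 := by
  unfold dec3
  rw [iotV_epsV_mulVec, iotV_epsV_mulVec, iotV_epsV_mulVec, iotV_ev_empty, h 0, h 1, h 2]
  simp

/-- the contraction of `a ∧ β` with a vector in the ideal of `β` -/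
theorem ctr_dec3 {t : Fin 3 → Fin n → ℂ} {Y : FI n → ℂ} (hY : ∀ j, epsV (t j) *ᵥ Y = 0)
    (a : Fin n → ℂ) : ctr Y (epsV a *ᵥ dec3 t) = tp (epsV a *ᵥ Y) • dec3 t := by
  rw [ctr_eq, iotV_epsV_mulVec, iotV_dec3, Matrix.mulVec_zero, sub_zero, tp_epsV, dotProduct_comm]
  intro j
  rw [dotProduct_comm, ← tp_epsV, hY j, tp_zero]

theorem epsV_ideal {t : Fin 3 → Fin n → ℂ} (a : Fin n → ℂ) (j : Fin 3) :
    epsV (t j) *ᵥ (epsV a *ᵥ dec3 t) = 0 := by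
  rw [epsV_comm_mulVec, epsV_dec3, Matrix.mulVec_zero, neg_zero]

theorem epsV_ideal_eps {t : Fin 3 → Fin n → ℂ} (k : Fin n) (a : Fin n → ℂ) (j : Fin 3) :
    epsV (t j) *ᵥ (eps k *ᵥ (epsV a *ᵥ dec3 t)) = 0 := by
  rw [epsV_eps_mulVec, epsV_ideal, Matrix.mulVec_zero, neg_zero]

/-! ### the tensor `Φ` -/

/-- the tensor `Φ(u)` -/
def Phi (u : Fin 3 → FI n → ℂ) (I J : FI n) : ℂ :=
  ∑ q, (ctr (eps q *ᵥ u 1) (u 0)) I * (iot q *ᵥ u 2) J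

theorem Phi_dec3 {t : Fin 3 → Fin n → ℂ} {a : Fin 3 → Fin n → ℂ} {u : Fin 3 → FI n → ℂ}
    (h : ∀ b, u b = epsV (a b) *ᵥ dec3 t) (I J : FI n) :
    Phi u I J = -tp (epsV (a 0) *ᵥ (epsV (a 1) *ᵥ (epsV (a 2) *ᵥ dec3 t))) *
      (dec3 t I * dec3 t J) := by
  have h1 : ∀ q, ctr (eps q *ᵥ u 1) (u 0) = tp (epsV (a 0) *ᵥ (eps q *ᵥ u 1)) • dec3 t := by
    intro q
    rw [h 0]
    refine ctr_dec3 (fun j => ?_) _
    rw [h 1]
    exact epsV_ideal_eps q (a 1) j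
  have h2 : ∀ q, tp (epsV (a 0) *ᵥ (eps q *ᵥ u 1)) = -tp (eps q *ᵥ (epsV (a 0) *ᵥ u 1)) := by
    intro q
    rw [epsV_eps_mulVec, tp_neg]
  have h3 : (ctr (epsV (a 0) *ᵥ u 1) (u 2)) = tp (epsV (a 2) *ᵥ (epsV (a 0) *ᵥ u 1)) • dec3 t := by
    rw [h 2]
    refine ctr_dec3 (fun j => ?_) _
    rw [h 1, epsV_comm_mulVec, epsV_ideal, Matrix.mulVec_zero, neg_zero]
  have h4 : tp (epsV (a 2) *ᵥ (epsV (a 0) *ᵥ u 1)) =
      tp (epsV (a 0) *ᵥ (epsV (a 1) *ᵥ (epsV (a 2) *ᵥ dec3 t))) := by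
    rw [h 1, epsV_comm_mulVec (a 2) (a 0), epsV_comm_mulVec (a 2) (a 1), Matrix.mulVec_neg, neg_neg]
  unfold Phi
  have h5 : ∀ q, (ctr (eps q *ᵥ u 1) (u 0)) I * (iot q *ᵥ u 2) J =
      -(dec3 t I) * (tp (eps q *ᵥ (epsV (a 0) *ᵥ u 1)) • (iot q *ᵥ u 2)) J := by
    intro q
    rw [h1 q, h2 q, Pi.smul_apply, Pi.smul_apply, smul_eq_mul, smul_eq_mul]
    ring
  rw [Finset.sum_congr rfl fun q _ => h5 q, ← Finset.mul_sum]
  have h6 : (∑ q, (tp (eps q *ᵥ (epsV (a 0) *ᵥ u 1)) • (iot q *ᵥ u 2)) J) =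
      (ctr (epsV (a 0) *ᵥ u 1) (u 2)) J := by
    unfold ctr
    rw [Finset.sum_apply]
  rw [h6, h3, h4, Pi.smul_apply, smul_eq_mul]
  ring

/-! ### equivariance -/

theorem tp_lam (K : Matrix (Fin n) (Fin n) ℂ) (Y : FI n → ℂ) : tp (lam K *ᵥ Y) = K.det * tp Y := by
  unfold tp
  rw [Matrix.mulVec, dotProduct, Finset.sum_eq_single Finset.univ]
  · rw [lam_top]
  · intro I _ hI
    rw [lam_apply_of_card_ne, zero_mul]
    intro h
    exact hI ((Finset.card_eq_iff_eq_univ I).1 (by rw [← h, Finset.card_univ]))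
  · intro h
    exact absurd (Finset.mem_univ _) h

theorem cv_lam (K : Matrix (Fin n) (Fin n) ℂ) (Y : FI n → ℂ) :
    cv (lam K *ᵥ Y) ᵥ* K = K.det • cv Y := by
  funext l
  have h1 : tp (lam K *ᵥ (eps l *ᵥ Y)) = K.det * tp (eps l *ᵥ Y) := tp_lam _ _
  rw [lam_eps_mulVec, tp_epsV] at h1
  rw [Pi.smul_apply, smul_eq_mul]
  refine Eq.trans ?_ h1
  rw [dotProduct_comm]
  rfl

theorem ctr_lam (K : Matrix (Fin n) (Fin n) ℂ) (Y v : FI n → ℂ) :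
    ctr (lam K *ᵥ Y) (lam K *ᵥ v) = K.det • (lam K *ᵥ ctr Y v) := by
  rw [ctr_eq, Matrix.mulVec_mulVec, iotV_lam, cv_lam, iotV_smul, Matrix.mul_smul,
    Matrix.smul_mulVec, ← Matrix.mulVec_mulVec, ctr_eq]

theorem ctr_smul_left (c : ℂ) (Y v : FI n → ℂ) : ctr (c • Y) v = c • ctr Y v := by
  rw [ctr_eq, ctr_eq, cv_smul, iotV_smul, Matrix.smul_mulVec]

theorem ctr_smul_right (c : ℂ) (Y v : FI n → ℂ) : ctr Y (c • v) = c • ctr Y v := by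
  rw [ctr_eq, ctr_eq, Matrix.mulVec_smul]

theorem ctr_sum_left {α : Type*} (s : Finset α) (f : α → FI n → ℂ) (v : FI n → ℂ) :
    ctr (∑ i ∈ s, f i) v = ∑ i ∈ s, ctr (f i) v := by
  unfold ctr
  simp only [Matrix.mulVec_sum, tp_sum, Finset.sum_smul]
  exact Finset.sum_comm

/-- `Φ` is equivariant -/
theorem Phi_lam (K : Matrix (Fin n) (Fin n) ℂ) (u : Fin 3 → FI n → ℂ) (I J : FI n) :
    Phi (fun b => lam K *ᵥ u b) I J =
      K.det * ∑ I', ∑ J', lam K I I' * lam K J J' * Phi u I' J' := by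
  -- contraction with `iot`
  have h1 : ∀ q, iot q *ᵥ (lam K *ᵥ u 2) = ∑ s, K q s • (lam K *ᵥ (iot s *ᵥ u 2)) := by
    intro q
    rw [Matrix.mulVec_mulVec, iot_lam, ← Matrix.mulVec_mulVec, Matrix.sum_mulVec, Matrix.mulVec_sum]
    exact Finset.sum_congr rfl fun s _ => by rw [Matrix.smul_mulVec, Matrix.mulVec_smul]
  have h2 : ∀ s, (∑ q, K q s • ctr (eps q *ᵥ (lam K *ᵥ u 1)) (lam K *ᵥ u 0)) =
      K.det • (lam K *ᵥ ctr (eps s *ᵥ u 1) (u 0)) := by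
    intro s
    rw [← ctr_lam, lam_eps_mulVec]
    unfold epsV
    rw [Matrix.sum_mulVec, ctr_sum_left]
    exact Finset.sum_congr rfl fun q _ => by rw [Matrix.smul_mulVec, ctr_smul_left]
  have h2' : ∀ s, (∑ q, K q s * ctr (eps q *ᵥ (lam K *ᵥ u 1)) (lam K *ᵥ u 0) I) =
      K.det * ∑ I', lam K I I' * ctr (eps s *ᵥ u 1) (u 0) I' := by
    intro s
    have h4 := congrFun (h2 s) I
    simp only [Finset.sum_apply, Pi.smul_apply, smul_eq_mul] at h4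
    exact h4
  unfold Phi
  simp only [h1, Finset.sum_apply, Pi.smul_apply, smul_eq_mul]
  have h3 : (∑ q, ctr (eps q *ᵥ (lam K *ᵥ u 1)) (lam K *ᵥ u 0) I *
      ∑ s, K q s * (lam K *ᵥ (iot s *ᵥ u 2)) J) =
      ∑ s, (K.det * ∑ I', lam K I I' * ctr (eps s *ᵥ u 1) (u 0) I') *
        (lam K *ᵥ (iot s *ᵥ u 2)) J := by
    simp only [Finset.mul_sum]
    rw [Finset.sum_comm]
    refine Finset.sum_congr rfl fun s _ => ?_
    rw [← Finset.mul_sum, ← h2' s, Finset.sum_mul]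
    refine Finset.sum_congr rfl fun q _ => ?_
    ring
  rw [h3]
  have h5 : ∀ s, (lam K *ᵥ (iot s *ᵥ u 2)) J = ∑ J', lam K J J' * (iot s *ᵥ u 2) J' :=
    fun s => rfl
  have h6 : ∀ s, (K.det * ∑ I', lam K I I' * ctr (eps s *ᵥ u 1) (u 0) I') *
      (lam K *ᵥ (iot s *ᵥ u 2)) J = ∑ I', ∑ J', K.det * (lam K I I' * lam K J J' *
        (ctr (eps s *ᵥ u 1) (u 0) I' * (iot s *ᵥ u 2) J')) := by
    intro s
    rw [h5 s, mul_assoc, Finset.sum_mul_sum, Finset.mul_sum]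
    refine Finset.sum_congr rfl fun I' _ => ?_
    rw [Finset.mul_sum]
    refine Finset.sum_congr rfl fun J' _ => ?_
    ring
  rw [Finset.sum_congr rfl fun s _ => h6 s, Finset.sum_comm, Finset.mul_sum]
  refine Finset.sum_congr rfl fun I' _ => ?_
  rw [Finset.sum_comm, Finset.mul_sum]
  refine Finset.sum_congr rfl fun J' _ => ?_
  rw [Finset.mul_sum, Finset.mul_sum]

theorem Phi_smul (c : ℂ) (u : Fin 3 → FI n → ℂ) (I J : FI n) :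
    Phi (fun b => c • u b) I J = c ^ 3 * Phi u I J := by
  unfold Phi
  simp only [Matrix.mulVec_smul, ctr_smul_left, ctr_smul_right, Pi.smul_apply, smul_eq_mul]
  rw [Finset.mul_sum]
  refine Finset.sum_congr rfl fun q _ => ?_
  ring

end Vale.Agent.P301.H395
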