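import Vale.Agent.P301.H508.Glue

/-!
# P301, package N3-M: gluing of primitive vectors to a line bundle, with matrix twists
-/

open scoped Manifold ContDiff ComplexOrder Topology Matrix
open Filter Metric Set

noncomputable section

namespace Vale.Agent.P301.H395

open Vale.Agent.P272.K Vale.Agent.P301.H599 Vale.Agent.P301.H724 Vale.Agent.P301.H508

variable {d : ℕ} {X : Type} [TopologicalSpace X] [ChartedSpace (Cm d) X] {K : Type} [Fintype K]
  [DecidableEq K] [IsManifold 𝓘(ℂ, Cm d) ω X]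

theorem an_mulVecX {A : X → Matrix K K ℂ} {w : X → K → ℂ} {e : Chart d X} {x : X}
    (hA : ∀ k l, AnalyticAt ℂ (fun z => A (e.symm z) k l) (e x))
    (hw : ∀ l, AnalyticAt ℂ (fun z => w (e.symm z) l) (e x)) (k : K) :
    AnalyticAt ℂ (fun z => (A (e.symm z) *ᵥ w (e.symm z)) k) (e x) := by
  simp only [Matrix.mulVec, dotProduct]
  exact Finset.analyticAt_fun_sum _ fun l _ => (hA k l).mul (hw l)

omit [DecidableEq K] in
/-- images of parallel vectors -/
theorem par_mulVec {v w : K → ℂ} (h : ∀ i j, v i * w j = v j * w i) (B : Matrix K K ℂ) (k l : K) :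
    (B *ᵥ v) k * (B *ᵥ w) l = (B *ᵥ v) l * (B *ᵥ w) k := by
  simp only [Matrix.mulVec, dotProduct, Finset.sum_mul_sum]
  rw [Finset.sum_comm]
  refine Finset.sum_congr rfl fun j _ => Finset.sum_congr rfl fun i _ => ?_
  linear_combination (B k i * B l j) * h i j

/-- two primitive vectors which are parallel up to a matrix twist differ by a unit. -/
theorem exists_unit_mat {v w : X → K → ℂ} {A B : X → Matrix K K ℂ} {x : X}
    (hv : PrimX (d := d) v x) (hw : PrimX (d := d) w x)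
    (hA : ∀ k l, AnX (d := d) (fun y => A y k l) x) (hB : ∀ k l, AnX (d := d) (fun y => B y k l) x)
    (hAB : ∀ᶠ y in 𝓝 x, A y * B y = 1 ∧ B y * A y = 1)
    (hpar : ∀ᶠ y in 𝓝 x, ∀ k l, v y k * (A y *ᵥ w y) l = v y l * (A y *ᵥ w y) k) :
    ∃ h : X → ℂ, AnX (d := d) h x ∧ h x ≠ 0 ∧ ∀ᶠ y in 𝓝 x, v y = h y • (A y *ᵥ w y) := by
  set e : Chart d X := chartAt (Cm d) x with hedef
  have he : At e x := at_chartAt x
  have hv' := hv e he
  have hw' := hw e he
  have hAa : ∀ k l, AnalyticAt ℂ (fun z => A (e.symm z) k l) (e x) := fun k l => hA k l e he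
  have hBa : ∀ k l, AnalyticAt ℂ (fun z => B (e.symm z) k l) (e x) := fun k l => hB k l e he
  have hpar' := ev_chart he hpar
  have hAB' := ev_chart he hAB
  obtain ⟨t, ht, ht1⟩ := hw'.dvd (fun z => B (e.symm z) *ᵥ v (e.symm z)) (by
    rw [analyticAt_pi_iff]
    exact fun k => an_mulVecX hBa (fun l => an_comp hv'.an l) k) (by
    filter_upwards [hpar', hAB'] with z h1 h2 i j
    have h3 := par_mulVec h1 (B (e.symm z)) i j
    rw [Matrix.mulVec_mulVec, h2.2, Matrix.one_mulVec] at h3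
    exact h3)
  obtain ⟨t', ht', ht1'⟩ := hv'.dvd (fun z => A (e.symm z) *ᵥ w (e.symm z)) (by
    rw [analyticAt_pi_iff]
    exact fun k => an_mulVecX hAa (fun l => an_comp hw'.an l) k) (by
    filter_upwards [hpar'] with z h1 i j
    have h3 := h1 j i
    linear_combination h3)
  obtain ⟨k, hk⟩ := ne_iff.1 hv'.ne
  have hvt : ∀ᶠ z in 𝓝 (e x), v (e.symm z) = t z • (A (e.symm z) *ᵥ w (e.symm z)) := by
    filter_upwards [ht1, hAB'] with z h1 h2
    have h3 := congrArg (A (e.symm z) *ᵥ ·) h1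
    simp only [Matrix.mulVec_mulVec, Matrix.mulVec_smul] at h3
    rwa [h2.1, Matrix.one_mulVec] at h3
  have h1 : ∀ᶠ z in 𝓝 (e x), 1 - t z * t' z = 0 := by
    refine (zero_or (an_comp hv'.an k) (analyticAt_const.sub (ht.mul ht')) ?_).resolve_left hk
    filter_upwards [hvt, ht1'] with z h2 h3
    have h4 := congrFun h2 k
    have h5 := congrFun h3 k
    simp only [Pi.smul_apply, smul_eq_mul] at h4 h5
    show v (e.symm z) k * (1 - t z * t' z) = 0
    linear_combination h4 + t z * h5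
  have h2 : t (e x) ≠ 0 := by
    intro h3
    have h4 := h1.self_of_nhds
    rw [h3, zero_mul, sub_zero] at h4
    exact one_ne_zero h4
  refine ⟨fun y => t (e y), AnX.of_chart he ?_, h2, ?_⟩
  · refine ht.congr ?_
    filter_upwards [e.open_target.mem_nhds (e.map_source he.2)] with z hz
    rw [e.right_inv hz]
  · refine ev_of_chart he ?_
    filter_upwards [hvt, e.open_target.mem_nhds (e.map_source he.2)] with z h3 h5
    rw [h3, e.right_inv h5]

variable (d X K) in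
/-- A family of primitive vectors on the members of an open cover, parallel up to twists. -/
structure MatData where
  U : X → Set X
  isOpen : ∀ x, IsOpen (U x)
  mem : ∀ x, x ∈ U x
  T : X → X → K → ℂ
  prim : ∀ x z, z ∈ U x → PrimX (d := d) (T x) z
  A : X → X → X → Matrix K K ℂ
  A_an : ∀ x y z, z ∈ U x → z ∈ U y → ∀ k l, AnX (d := d) (fun w => A x y w k l) z
  A_one : ∀ x z, z ∈ U x → A x x z = 1
  A_coc : ∀ x y w z, z ∈ U x → z ∈ U y → z ∈ U w → A x y z * A y w z = A x w z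
  par : ∀ x y z, z ∈ U x → z ∈ U y → ∀ᶠ z' in 𝓝 z, ∀ k l,
    T x z' k * (A x y z' *ᵥ T y z') l = T x z' l * (A x y z' *ᵥ T y z') k

/-- the line bundle of a family of primitive vectors. -/
theorem MatData.glue (P : MatData d X K) : ∃ W : LineBundle d X X, W.U = P.U ∧
    ∀ x y z, z ∈ P.U x → z ∈ P.U y → P.T x z = W.g x y z • (P.A x y z *ᵥ P.T y z) := by
  classical
  have hopen : ∀ x y z, z ∈ P.U x → z ∈ P.U y → ∀ᶠ w in 𝓝 z, w ∈ P.U x ∧ w ∈ P.U y := by
    intro x y z hx hy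
    filter_upwards [(P.isOpen x).mem_nhds hx, (P.isOpen y).mem_nhds hy] with w h8 h9
      using ⟨h8, h9⟩
  have hinv : ∀ x y z, z ∈ P.U x → z ∈ P.U y → ∀ᶠ w in 𝓝 z,
      P.A x y w * P.A y x w = 1 ∧ P.A y x w * P.A x y w = 1 := by
    intro x y z hx hy
    filter_upwards [hopen x y z hx hy] with w hw
    rw [P.A_coc x y x w hw.1 hw.2 hw.1, P.A_coc y x y w hw.2 hw.1 hw.2, P.A_one x w hw.1,
      P.A_one y w hw.2]
    exact ⟨rfl, rfl⟩
  have hH : ∀ x y z, z ∈ P.U x ∧ z ∈ P.U y → ∃ h : X → ℂ, AnX (d := d) h z ∧ h z ≠ 0 ∧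
      ∀ᶠ w in 𝓝 z, P.T x w = h w • (P.A x y w *ᵥ P.T y w) := fun x y z hz =>
    exists_unit_mat (P.prim x z hz.1) (P.prim y z hz.2) (P.A_an x y z hz.1 hz.2)
      (P.A_an y x z hz.2 hz.1) (hinv x y z hz.1 hz.2) (P.par x y z hz.1 hz.2)
  choose H hHa hH0 hHe using hH
  set g : X → X → X → ℂ := fun x y z => if hz : z ∈ P.U x ∧ z ∈ P.U y then H x y z hz z else 1
    with hg
  have hgz : ∀ x y z (hz : z ∈ P.U x ∧ z ∈ P.U y), g x y z = H x y z hz z := by
    intro x y z hz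
    rw [hg]
    simp only
    rw [dif_pos hz]
  -- the twisted vector
  have hdata : ∀ x y z, z ∈ P.U x → z ∈ P.U y → ∃ e : Chart d X, At e z ∧
      AnalyticAt ℂ (fun w => (fun v => P.A x y v *ᵥ P.T y v : X → K → ℂ) (e.symm w)) (e z) ∧
      ¬ ∀ᶠ w in 𝓝 (e z), (fun v => P.A x y v *ᵥ P.T y v : X → K → ℂ) (e.symm w) = 0 := by
    intro x y z hx hy
    obtain ⟨e, he, h1, h2⟩ := (P.prim y z hy).data
    refine ⟨e, he, ?_, fun h3 => h2 ?_⟩
    · rw [analyticAt_pi_iff]
      exact fun k => an_mulVecX (fun k l => P.A_an x y z hx hy k l e he) (fun l => an_comp h1 l) k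
    · filter_upwards [h3, ev_chart he (hinv x y z hx hy)] with w h5 h6
      have h7 : P.A x y (e.symm w) *ᵥ P.T y (e.symm w) = 0 := h5
      have h8 := congrArg (P.A y x (e.symm w) *ᵥ ·) h7
      simp only [Matrix.mulVec_mulVec, Matrix.mulVec_zero] at h8
      rwa [h6.2, Matrix.one_mulVec] at h8
  have key : ∀ x y z (hz : z ∈ P.U x ∧ z ∈ P.U y), ∀ᶠ w in 𝓝 z, g x y w = H x y z hz w := by
    intro x y z hz
    filter_upwards [hopen x y z hz.1 hz.2, (hHa x y z hz).eventually, (hHe x y z hz).eventually_nhds]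
      with w hw h2 h3
    rw [hgz x y w hw]
    have h4 := factor_unique (v := fun v => P.A x y v *ᵥ P.T y v)
      (hdata x y w hw.1 hw.2) (hHa x y w hw) h2 (by
      filter_upwards [hHe x y w hw, h3] with v h5 h6 k
      have h7 := congrFun (h5.symm.trans h6) k
      simpa only [Pi.smul_apply, smul_eq_mul] using h7)
    exact h4.self_of_nhds
  have hT : ∀ x y z, z ∈ P.U x → z ∈ P.U y →
      P.T x z = g x y z • (P.A x y z *ᵥ P.T y z) := by
    intro x y z hx hy
    rw [hgz x y z ⟨hx, hy⟩]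
    exact (hHe x y z ⟨hx, hy⟩).self_of_nhds
  refine ⟨⟨P.U, P.isOpen, fun x => ⟨x, P.mem x⟩, g, ?_, ?_, ?_⟩, rfl, hT⟩
  · intro i j e x he hi hj
    refine (hHa i j x ⟨hi, hj⟩ e he).congr ?_
    filter_upwards [ev_chart he (key i j x ⟨hi, hj⟩)] with z hz
    exact hz.symm
  · intro i j x hi hj
    rw [hgz i j x ⟨hi, hj⟩]
    exact hH0 i j x ⟨hi, hj⟩
  · intro i j k x hi hj hk
    have h1 := factor_unique (v := fun y => P.A i k y *ᵥ P.T k y)
      (h := fun y => H i j x ⟨hi, hj⟩ y * H j k x ⟨hj, hk⟩ y)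
      (h' := H i k x ⟨hi, hk⟩) (hdata i k x hi hk)
      (fun e he => (hHa i j x ⟨hi, hj⟩ e he).mul (hHa j k x ⟨hj, hk⟩ e he))
      (hHa i k x ⟨hi, hk⟩) (by
      have h2 : ∀ᶠ y in 𝓝 x, y ∈ P.U i ∧ y ∈ P.U j ∧ y ∈ P.U k := by
        filter_upwards [(P.isOpen i).mem_nhds hi, (P.isOpen j).mem_nhds hj,
          (P.isOpen k).mem_nhds hk] with w h8 h9 h10 using ⟨h8, h9, h10⟩
      filter_upwards [hHe i j x ⟨hi, hj⟩, hHe j k x ⟨hj, hk⟩, hHe i k x ⟨hi, hk⟩, h2]
        with y h3 h4 h5 h6 l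
      rw [h4, Matrix.mulVec_smul, smul_smul, Matrix.mulVec_mulVec,
        P.A_coc i j k y h6.1 h6.2.1 h6.2.2, h5] at h3
      have h7 := congrFun h3 l
      simp only [Pi.smul_apply, smul_eq_mul] at h7
      exact h7.symm)
    rw [hgz i j x ⟨hi, hj⟩, hgz j k x ⟨hj, hk⟩, hgz i k x ⟨hi, hk⟩]
    exact h1.self_of_nhds

end Vale.Agent.P301.H395
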