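import Vale.Agent.P301.H395.Loc3
import Vale.Agent.P301.H395.GlueV
import Vale.Agent.P301.H897.Main
import Vale.Agent.P301.H724.Ten
import Vale.Agent.P301.H724.Minor
import Vale.Agent.P301.H85.SC.Symp
import Vale.Agent.P301.H949.Iso

/-!
# P301, package N3-M: generic points, transition matrices
-/

open scoped Manifold ContDiff ComplexOrder Topology Matrix
open Filter Metric Set
open Vale.Agent.P272.K Vale.Agent.P299 Vale.Agent.P299.IX Vale.Agent.P299.IX.Fock
open Vale.Agent.P301.H599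
open Vale.Agent.P301.H724 (IsSec Nz HasSec wedge mnr lamPow isSec_wedge)
open Vale.Agent.P301.H897 (LamF)
open Vale.Agent.P301.H508 (Prim Par AnX PrimX ev_chart ev_of_chart zero_or an_comp ne_iff)

noncomputable section

namespace Vale.Agent.P301.H395

/-! ### generic points -/

theorem dec3_zero_of_dep {n : ℕ} {t : Fin 3 → Fin n → ℂ} {y : Fin 3 → ℂ} (hy : y ≠ 0)
    (h : ∑ j, y j • t j = 0) : dec3 t = 0 := by
  have h1 : ∀ x : FI n → ℂ, y 0 • (epsV (t 0) *ᵥ x) + y 1 • (epsV (t 1) *ᵥ x) +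
      y 2 • (epsV (t 2) *ᵥ x) = 0 := by
    intro x
    have h2 : epsV (∑ j, y j • t j) *ᵥ x = 0 := by
      rw [h]
      have : epsV (0 : Fin n → ℂ) = 0 := by simp [epsV]
      rw [this, Matrix.zero_mulVec]
    rw [epsV_sum, Matrix.sum_mulVec, Fin.sum_univ_three] at h2
    simpa only [epsV_smul, Matrix.smul_mulVec] using h2
  obtain ⟨j, hj⟩ := Function.ne_iff.1 hy
  have hj' : y j ≠ 0 := hj
  have h3 : y j • dec3 t = 0 := by
    unfold dec3
    fin_cases j
    · have h4 := h1 (epsV (t 1) *ᵥ (epsV (t 2) *ᵥ ev ∅))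
      rw [epsV_sq_mulVec, epsV_comm_mulVec (t 2) (t 1), epsV_sq_mulVec, Matrix.mulVec_zero,
        neg_zero, smul_zero, smul_zero, add_zero, add_zero] at h4
      exact h4
    · have h4 := congrArg (epsV (t 0) *ᵥ ·) (h1 (epsV (t 2) *ᵥ ev ∅))
      simp only [Matrix.mulVec_add, Matrix.mulVec_smul, epsV_sq_mulVec, smul_zero, zero_add,
        Matrix.mulVec_zero, add_zero] at h4
      exact h4
    · have h4 := congrArg (fun v => epsV (t 0) *ᵥ (epsV (t 1) *ᵥ v)) (h1 (ev ∅))
      simp only [Matrix.mulVec_add, Matrix.mulVec_smul, epsV_sq_mulVec, smul_zero,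
        Matrix.mulVec_zero, add_zero, epsV_comm_mulVec (t 1) (t 0), Matrix.mulVec_neg, neg_zero,
        zero_add] at h4
      exact h4
  exact (smul_eq_zero.1 h3).resolve_left hj'

theorem gd_of_mnr {v : Fin 3 → FI 6 → ℂ}
    (h : ∃ t : Fin 3 → Fin 6 → ℂ, ∀ b, ∃ a : Fin 6 → ℂ, v b = epsV a *ᵥ dec3 t)
    (hw : ∃ c, mnr v c ≠ 0) : Gd v := by
  obtain ⟨t, ht⟩ := h
  choose a ha using ht
  obtain ⟨c, hc⟩ := hw
  refine ⟨t, a, ha, fun h0 => ?_⟩
  rw [tp_six] at h0
  obtain ⟨y, hy0, hy⟩ := Matrix.exists_mulVec_eq_zero_iff.2 h0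
  have h1 : (∑ j : Fin 3, (![y 0, y 1, y 2] j) • a j) +
      ∑ j : Fin 3, (![y 3, y 4, y 5] j) • t j = 0 := by
    rw [← hy, mulVec_eq_sum_smul]
    simp only [Fin.sum_univ_six, Fin.sum_univ_three]
    funext p
    simp only [six, Matrix.of_apply, Pi.add_apply, Pi.smul_apply, smul_eq_mul]
    show y 0 * a 0 p + y 1 * a 1 p + y 2 * a 2 p + (y 3 * t 0 p + y 4 * t 1 p + y 5 * t 2 p) =
      y 0 * a 0 p + y 1 * a 1 p + y 2 * a 2 p + y 3 * t 0 p + y 4 * t 1 p + y 5 * t 2 p
    ring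
  have h2 : ∑ j : Fin 3, (![y 0, y 1, y 2] j) • v j = 0 := by
    have h3 := epsV_comb ![y 0, y 1, y 2] ![y 3, y 4, y 5] a t (dec3 t)
    rw [h1] at h3
    have h4 : epsV (0 : Fin 6 → ℂ) = 0 := by simp [epsV]
    rw [h4, Matrix.zero_mulVec] at h3
    simp only [epsV_dec3, smul_zero, Finset.sum_const_zero, add_zero, ← ha] at h3
    exact h3.symm
  by_cases hz : (![y 0, y 1, y 2] : Fin 3 → ℂ) = 0
  · have h3 : ∑ j : Fin 3, (![y 3, y 4, y 5] j) • t j = 0 := by
      rw [hz] at h1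
      simpa using h1
    have hz' : (![y 3, y 4, y 5] : Fin 3 → ℂ) ≠ 0 := by
      intro h4
      apply hy0
      have e0 : y 0 = 0 := congrFun hz 0
      have e1 : y 1 = 0 := congrFun hz 1
      have e2 : y 2 = 0 := congrFun hz 2
      have e3 : y 3 = 0 := congrFun h4 0
      have e4 : y 4 = 0 := congrFun h4 1
      have e5 : y 5 = 0 := congrFun h4 2
      funext l
      fin_cases l
      · exact e0
      · exact e1
      · exact e2
      · exact e3
      · exact e4
      · exact e5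
    have h4 := dec3_zero_of_dep hz' h3
    apply hc
    have h5 : v = fun _ => 0 := by
      funext b
      rw [ha b, h4, Matrix.mulVec_zero]
    rw [h5]
    unfold mnr
    refine Matrix.det_eq_zero_of_row_eq_zero 0 fun b => rfl
  · apply hc
    unfold mnr
    refine Matrix.exists_mulVec_eq_zero_iff.1 ⟨![y 0, y 1, y 2], hz, ?_⟩
    funext i
    have h3 := congrFun h2 (c i)
    simp only [Finset.sum_apply, Pi.smul_apply, smul_eq_mul, Pi.zero_apply] at h3
    simp only [Matrix.mulVec, dotProduct, Matrix.of_apply, Pi.zero_apply]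
    rw [← h3]
    exact Finset.sum_congr rfl fun j _ => mul_comm _ _

variable {X : Type} [TopologicalSpace X] [ChartedSpace (Cm 6) X] {ι : Type}
  {L : LineBundle 6 X ι} {m : ℕ} {u : Fin 3 → ι → Chart 6 X → Cm 6 → FI 6 → ℂ}

/-- the good points are dense -/
theorem dense_gd [PreconnectedSpace X] (hu : ∀ b, IsSec L LamF m (u b))
    (hG : ∀ i (e : Chart 6 X) x, At e x → x ∈ L.U i →
      ∃ t : Fin 3 → Fin 6 → ℂ, ∀ b, ∃ a : Fin 6 → ℂ, u b i e (e x) = epsV a *ᵥ dec3 t)
    (hw : ∃ i e x, At e x ∧ x ∈ L.U i ∧ wedge u i e (e x) ≠ 0) :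
    Dense {x : X | ∀ i (e : Chart 6 X), At e x → x ∈ L.U i → Gd fun b => u b i e (e x)} := by
  have hW := isSec_wedge hu
  obtain ⟨i, e, x, he, hi, h0⟩ := hw
  refine (hW.dense ⟨x, hW.nz he hi h0⟩).mono fun y hy j e' he' hj => ?_
  have h1 : wedge u j e' (e' y) ≠ 0 := hy j e' he' hj
  obtain ⟨c, hc⟩ := Function.ne_iff.1 h1
  exact gd_of_mnr (hG j e' y he' hj) ⟨c, hc⟩

/-- transfer of density to a chart -/
theorem freq_chart {d : ℕ} {X : Type} [TopologicalSpace X] [ChartedSpace (Cm d) X] {S : Set X}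
    (hS : Dense S) {e : Chart d X} {x : X} (he : At e x) {O : Set X} (hO : O ∈ 𝓝 x) :
    ∃ᶠ z in 𝓝 (e x), e.symm z ∈ S ∧ e.symm z ∈ O ∧ z ∈ e.target := by
  intro hcon
  have h1 : Tendsto e (𝓝 x) (𝓝 (e x)) := (e.continuousAt he.2).tendsto
  have h2 : ∀ᶠ y in 𝓝 x, y ∉ S := by
    filter_upwards [h1.eventually hcon, e.open_source.mem_nhds he.2, hO] with y h3 h4 h5 h6
    rw [e.left_inv h4] at h3
    exact h3 ⟨h6, h5, e.map_source h4⟩
  have h3 := hS x
  rw [mem_closure_iff_frequently] at h3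
  exact h3 h2

/-- the hypothesis of the local theorem -/
theorem hP_of_dense {i : ι}
    (hd : Dense {x : X | ∀ i (e : Chart 6 X), At e x → x ∈ L.U i → Gd fun b => u b i e (e x)})
    {e : Chart 6 X} {x : X} (he : At e x) (hi : x ∈ L.U i) :
    ∀ᶠ z in 𝓝 (e x), ∃ᶠ z' in 𝓝 z, Gd fun b => u b i e z' := by
  filter_upwards [(Vale.Agent.P301.H724.isOpen_dom L e i).mem_nhds
    (show e x ∈ e.target ∩ e.symm ⁻¹' L.U i from ⟨e.map_source he.2, by
      show e.symm (e x) ∈ L.U i
      rwa [e.left_inv he.2]⟩)] with z hz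
  have hz' : At e (e.symm z) := ⟨he.1, e.map_target hz.1⟩
  have h1 := freq_chart hd hz' ((L.isOpen i).mem_nhds hz.2)
  rw [e.right_inv hz.1] at h1
  refine h1.mono fun z' h2 => ?_
  have h3 := h2.1 i e ⟨he.1, e.map_target h2.2.2⟩ h2.2.1
  rwa [e.right_inv h2.2.2] at h3

/-! ### the transition matrices -/

theorem an_lam {E : Type*} [NormedAddCommGroup E] [NormedSpace ℂ E] {n : ℕ} {z₀ : E}
    {J : E → Matrix (Fin n) (Fin n) ℂ} (hJ : ∀ p l, AnalyticAt ℂ (fun z => J z p l) z₀)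
    (K I : FI n) : AnalyticAt ℂ (fun z => lam (J z) K I) z₀ := by
  have h1 : ∀ z, lam (J z) K I = (lam (J z) *ᵥ ev I) K := fun z => (mulVec_ev _ _ _).symm
  simp only [h1]
  induction I using Finset.induction_on_min generalizing K with
  | empty =>
    simp only [lam_ev_empty]
    exact analyticAt_const
  | insert i I hi ih =>
    simp only [lam_ev_insert _ hi]
    have h2 : ∀ z, (epsV (fun p => J z p i) *ᵥ (lam (J z) *ᵥ ev I)) K =
        ∑ p, J z p i * (eps p *ᵥ (lam (J z) *ᵥ ev I)) K := by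
      intro z
      unfold epsV
      rw [Matrix.sum_mulVec, Finset.sum_apply]
      exact Finset.sum_congr rfl fun p _ => by rw [Matrix.smul_mulVec]; rfl
    simp only [h2]
    exact Finset.analyticAt_fun_sum _ fun p _ => (hJ p i).mul
      (an_mulVec _ (fun K' => ih K' fun z => (mulVec_ev _ _ _).symm) K)

section LamF

variable {d : ℕ} {X : Type} [TopologicalSpace X] [ChartedSpace (Cm d) X]
  [IsManifold 𝓘(ℂ, Cm d) ω X] {e e' e'' : Chart d X} {x : X}

theorem LamF_comp (he : At e x) (he' : At e' x) (he'' : At e'' x) :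
    LamF e e' x * LamF e' e'' x = LamF e e'' x := by
  unfold LamF
  rw [← lam_mul, ← Matrix.transpose_mul, ← jacM_comp he he' he'']

theorem LamF_self (he : At e x) : LamF e e x = 1 := by
  unfold LamF
  rw [jacM_self he, Matrix.transpose_one, lam_one]

theorem an_jacM (he : At e x) (he' : At e' x) (p l : Fin d) :
    AnalyticAt ℂ (fun z => jacM e e' (e.symm z) p l) (e x) :=
  (jacM_holo he he' p l).analyticAt

theorem anX_LamF (he : At e x) (he' : At e' x) (K I : FI d) :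
    AnX (d := d) (fun y => LamF e e' y K I) x :=
  AnX.of_chart he (an_lam (J := fun z => (jacM e e' (e.symm z))ᵀ)
    (fun p l => an_jacM he he' l p) K I)

end LamF

end Vale.Agent.P301.H395
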