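import Vale.Agent.P301.H395.Cramer
import Vale.Agent.P301.H508.Sat
import Vale.Agent.P301.H724.Kappa

/-!
# P301, package N3-M: the local primitive form of three forms in the ideal of a decomposable form
-/

open scoped Matrix
open Set Filter Metric Topology
open Vale.Agent.P299 Vale.Agent.P299.IX Vale.Agent.P299.IX.Fock
open Vale.Agent.P301.H508 (Prim Par sat Sat zero_or an_comp ne_iff)

noncomputable section

namespace Vale.Agent.P301.H395

section an

variable {E : Type*} [NormedAddCommGroup E] [NormedSpace ℂ E] {n : ℕ} {z₀ : E}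

theorem an_mulVec {A B : Type*} [Fintype B] (M : Matrix A B ℂ) {v : E → B → ℂ}
    (hv : ∀ b, AnalyticAt ℂ (fun z => v z b) z₀) (a : A) :
    AnalyticAt ℂ (fun z => (M *ᵥ v z) a) z₀ := by
  simp only [Matrix.mulVec, dotProduct]
  exact Finset.analyticAt_fun_sum _ fun b _ => analyticAt_const.mul (hv b)

theorem an_ctr {Y v : E → FI n → ℂ} (hY : ∀ I, AnalyticAt ℂ (fun z => Y z I) z₀)
    (hv : ∀ I, AnalyticAt ℂ (fun z => v z I) z₀) (I : FI n) :
    AnalyticAt ℂ (fun z => ctr (Y z) (v z) I) z₀ := by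
  unfold ctr tp
  simp only [Finset.sum_apply, Pi.smul_apply, smul_eq_mul]
  exact Finset.analyticAt_fun_sum _ fun p _ => (an_mulVec _ hY _).mul (an_mulVec _ hv _)

theorem an_Phi {U : Fin 3 → E → FI n → ℂ} (hU : ∀ b I, AnalyticAt ℂ (fun z => U b z I) z₀)
    (I J : FI n) : AnalyticAt ℂ (fun z => Phi (fun b => U b z) I J) z₀ := by
  unfold Phi
  exact Finset.analyticAt_fun_sum _ fun q _ =>
    (an_ctr (fun K => an_mulVec _ (hU 1) K) (hU 0) I).mul (an_mulVec _ (hU 2) J)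

theorem an_Hk {U : Fin 3 → E → FI 6 → ℂ} (hU : ∀ b I, AnalyticAt ℂ (fun z => U b z I) z₀)
    (k : Fin 6) (j : Fin 3) (I : FI 6) :
    AnalyticAt ℂ (fun z => Hk (fun b => U b z) k j I) z₀ := by
  fin_cases j
  · exact (an_ctr (fun K => an_mulVec _ (hU 2) K) (hU 1) I).neg
  · exact an_ctr (fun K => an_mulVec _ (hU 2) K) (hU 0) I
  · exact (an_ctr (fun K => an_mulVec _ (hU 1) K) (hU 0) I).neg

/-- an analytic identity which holds on a dense set -/
theorem closure_eq {f : E → ℂ} {P : E → Prop} (hf : AnalyticAt ℂ f z₀)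
    (hP : ∀ᶠ z in 𝓝 z₀, ∃ᶠ z' in 𝓝 z, P z') (h : ∀ᶠ z in 𝓝 z₀, P z → f z = 0) :
    ∀ᶠ z in 𝓝 z₀, f z = 0 := by
  filter_upwards [hf.eventually_analyticAt, hP, h.eventually_nhds] with z h1 h2 h3
  by_contra h4
  obtain ⟨z', h5, h6, h7⟩ := ((h2.and_eventually (h3.and
    (h1.continuousAt.eventually_ne h4)))).exists
  exact h7 (h6 h5)

end an

/-- the good points -/
def Gd (v : Fin 3 → FI 6 → ℂ) : Prop :=
  ∃ t a : Fin 3 → Fin 6 → ℂ, (∀ b, v b = epsV (a b) *ᵥ dec3 t) ∧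
    tp (epsV (a 0) *ᵥ (epsV (a 1) *ᵥ (epsV (a 2) *ᵥ dec3 t))) ≠ 0

theorem dec3_deg {n : ℕ} (t : Fin 3 → Fin n → ℂ) {I : FI n} (hI : I.card ≠ 3) : dec3 t I = 0 := by
  have h1 : ∀ (p : ℕ) (v : Fin n → ℂ) (x : FI n → ℂ), (∀ I : FI n, I.card ≠ p → x I = 0) →
      ∀ I : FI n, I.card ≠ p + 1 → (epsV v *ᵥ x) I = 0 := by
    intro p v x hx I hI
    unfold epsV
    rw [Matrix.sum_mulVec, Finset.sum_apply]
    refine Finset.sum_eq_zero fun l _ => ?_
    rw [Matrix.smul_mulVec, Pi.smul_apply, eps_mulVec]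
    split_ifs with h
    · rw [hx (I.erase l), mul_zero, smul_zero]
      rw [Finset.card_erase_of_mem h]
      intro h2
      apply hI
      have := Finset.card_pos.2 ⟨l, h⟩
      omega
    · rw [smul_zero]
  unfold dec3
  refine h1 2 _ _ (h1 1 _ _ (h1 0 _ _ fun J hJ => ?_)) I hI
  rw [ev, Pi.single_apply, if_neg]
  rintro rfl
  exact hJ rfl

/-- at a good point -/
theorem Gd.ten {v : Fin 3 → FI 6 → ℂ} (h : Gd v) : ∃ (t a : Fin 3 → Fin 6 → ℂ) (D : ℂ), D ≠ 0 ∧
    (∀ b, v b = epsV (a b) *ᵥ dec3 t) ∧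
    D = tp (epsV (a 0) *ᵥ (epsV (a 1) *ᵥ (epsV (a 2) *ᵥ dec3 t))) ∧ dec3 t ≠ 0 ∧
    ∀ I J, Phi v I J = -D * (dec3 t I * dec3 t J) := by
  obtain ⟨t, a, h1, h2⟩ := h
  refine ⟨t, a, _, h2, h1, rfl, fun h3 => h2 ?_, fun I J => Phi_dec3 h1 I J⟩
  rw [h3, Matrix.mulVec_zero, Matrix.mulVec_zero, Matrix.mulVec_zero, tp_zero]

variable {U : Fin 3 → (Fin 6 → ℂ) → FI 6 → ℂ} {z₀ : Fin 6 → ℂ}

/-- the primitive form -/
theorem exists_prim (hU : ∀ b I, AnalyticAt ℂ (fun z => U b z I) z₀)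
    (hP : ∀ᶠ z in 𝓝 z₀, ∃ᶠ z' in 𝓝 z, Gd fun b => U b z') :
    ∃ (T : (Fin 6 → ℂ) → FI 6 → ℂ) (g : (Fin 6 → ℂ) → ℂ), (∀ᶠ z in 𝓝 z₀, Prim T z) ∧
      AnalyticAt ℂ g z₀ ∧
      ∀ᶠ z in 𝓝 z₀, ∀ I J, Phi (fun b => U b z) I J = g z * T z I * T z J := by
  classical
  set F : (Fin 6 → ℂ) → FI 6 → FI 6 → ℂ := fun z I J => Phi (fun b => U b z) I J with hF
  have hFa : ∀ I J, AnalyticAt ℂ (fun z => F z I J) z₀ := fun I J => an_Phi hU I J
  -- the rank is one, and the tensor is symmetric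
  have hrk : ∀ᶠ z in 𝓝 z₀, ∀ I J K M, F z I J * F z K M = F z K J * F z I M := by
    simp only [eventually_all]
    intro I J K M
    have h1 := closure_eq (f := fun z => F z I J * F z K M - F z K J * F z I M)
      (((hFa I J).mul (hFa K M)).sub ((hFa K J).mul (hFa I M))) hP
      (Eventually.of_forall fun z hz => by
        obtain ⟨t, a, D, -, -, -, -, h2⟩ := hz.ten
        show F z I J * F z K M - F z K J * F z I M = 0
        simp only [hF, h2]
        ring)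
    filter_upwards [h1] with z hz
    exact sub_eq_zero.1 hz
  have hsy : ∀ᶠ z in 𝓝 z₀, ∀ I J, F z I J = F z J I := by
    simp only [eventually_all]
    intro I J
    have h1 := closure_eq (f := fun z => F z I J - F z J I) ((hFa I J).sub (hFa J I)) hP
      (Eventually.of_forall fun z hz => by
        obtain ⟨t, a, D, -, -, -, -, h2⟩ := hz.ten
        show F z I J - F z J I = 0
        simp only [hF, h2]
        ring)
    filter_upwards [h1] with z hz
    exact sub_eq_zero.1 hz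
  -- a nonzero column
  obtain ⟨J₀, hJ₀⟩ : ∃ J, ¬ ∀ᶠ z in 𝓝 z₀, (fun I => F z I J) = 0 := by
    by_contra hcon
    push Not at hcon
    have h1 : ∀ᶠ z in 𝓝 z₀, ∀ J I, F z I J = 0 := by
      rw [eventually_all]
      intro J
      filter_upwards [hcon J] with z hz I
      exact congrFun hz I
    obtain ⟨z, h2, h3⟩ := (hP.self_of_nhds.and_eventually h1).exists
    obtain ⟨t, a, D, hD, -, -, h5, h4⟩ := h2.ten
    obtain ⟨I, hI⟩ := Function.ne_iff.1 h5
    have h6 := h3 I I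
    simp only [hF, h4] at h6
    exact (mul_ne_zero (neg_ne_zero.2 hD) (mul_ne_zero hI hI)) h6
  -- saturation
  obtain ⟨s, T, hs, hsT, hprim⟩ := sat (w := fun z I => F z I J₀) (a := z₀)
    (analyticAt_pi_iff.2 fun I => hFa I J₀) hJ₀
  have hT0 : Prim T z₀ := hprim.self_of_nhds
  have hTa : ∀ I, AnalyticAt ℂ (fun z => T z I) z₀ := fun I => an_comp hT0.an I
  have hs0 : ¬ ∀ᶠ z in 𝓝 z₀, s z = 0 := by
    intro h1
    apply hJ₀
    filter_upwards [h1, hsT] with z h2 h3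
    rw [h3, h2, zero_smul]
  -- the columns are multiples of `T`
  have hcol : ∀ J, ∃ τ : (Fin 6 → ℂ) → ℂ, AnalyticAt ℂ τ z₀ ∧ ∀ᶠ z in 𝓝 z₀,
      (fun I => F z I J) = τ z • T z := by
    intro J
    refine hT0.dvd (fun z I => F z I J) (analyticAt_pi_iff.2 fun I => hFa I J) ?_
    unfold Par
    simp only [eventually_all]
    intro I K
    have h1 := zero_or hs (((hFa I J).mul (hTa K)).sub ((hFa K J).mul (hTa I))) (by
      filter_upwards [hsT, hrk] with z h2 h3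
      have h4 := congrFun h2 K
      have h5 := congrFun h2 I
      simp only [Pi.smul_apply, smul_eq_mul] at h4 h5
      show s z * (F z I J * T z K - F z K J * T z I) = 0
      have h6 := h3 I J K J₀
      linear_combination (-F z I J) * h4 + F z K J * h5 + h6)
    filter_upwards [h1.resolve_left hs0] with z hz
    exact sub_eq_zero.1 hz
  choose τ hτa hτ using hcol
  have hτ' : ∀ᶠ z in 𝓝 z₀, ∀ J I, F z I J = τ J z * T z I := by
    rw [eventually_all]
    intro J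
    filter_upwards [hτ J] with z hz I
    exact congrFun hz I
  -- the factor
  obtain ⟨g, hga, hg⟩ := hT0.dvd (fun z J => τ J z) (analyticAt_pi_iff.2 fun J => hτa J) (by
    unfold Par
    simp only [eventually_all]
    intro I J
    -- `τ_I T_J = τ_J T_I` directly from the symmetry
    filter_upwards [hτ', hsy] with z h1 h2
    rw [← h1 I J, ← h1 J I, h2])
  refine ⟨T, g, hprim, hga, ?_⟩
  filter_upwards [hτ', hg] with z h1 h2 I J
  have h3 := congrFun h2 J
  simp only [Pi.smul_apply, smul_eq_mul] at h3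
  show F z I J = _
  rw [h1 J I, h3]
  ring

variable {T : (Fin 6 → ℂ) → FI 6 → ℂ} {g : (Fin 6 → ℂ) → ℂ}

/-- at the good points -/
theorem good_of_ten (hten : ∀ᶠ z in 𝓝 z₀, ∀ I J, Phi (fun b => U b z) I J = g z * T z I * T z J) :
    ∀ᶠ z in 𝓝 z₀, (Gd fun b => U b z) → ∃ (t a : Fin 3 → Fin 6 → ℂ) (τ : ℂ),
      τ ≠ 0 ∧ T z = τ • dec3 t ∧ g z ≠ 0 ∧ (∀ b, U b z = epsV (a b) *ᵥ dec3 t) ∧
      tp (epsV (a 0) *ᵥ (epsV (a 1) *ᵥ (epsV (a 2) *ᵥ dec3 t))) ≠ 0 ∧ dec3 t ≠ 0 ∧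
      g z * τ ^ 2 = -tp (epsV (a 0) *ᵥ (epsV (a 1) *ᵥ (epsV (a 2) *ᵥ dec3 t))) := by
  filter_upwards [hten] with z h1 hz
  obtain ⟨t, a, D, hD, h2, hD', h4, h3⟩ := hz.ten
  obtain ⟨τ, hτ0, hτT, hg0⟩ := par_of_tensor (g := g z) (T := T z) (neg_ne_zero.2 hD) h4
    (fun I J => by rw [← h1 I J, h3 I J])
  refine ⟨t, a, τ, hτ0, hτT, hg0, h2, hD' ▸ hD, h4, ?_⟩
  obtain ⟨M, hM⟩ := Function.ne_iff.1 h4
  have hM' : dec3 t M ≠ 0 := hM
  have h5 := h1 M M
  rw [h3 M M, hτT, Pi.smul_apply, smul_eq_mul] at h5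
  rw [← hD']
  have h6 : (g z * τ ^ 2 + D) * (dec3 t M * dec3 t M) = 0 := by linear_combination -h5
  have h7 := (mul_eq_zero.1 h6).resolve_right (mul_ne_zero hM' hM')
  linear_combination h7

/-- **Cramer's rule with holomorphic coefficients.** -/
theorem exists_coeff (hU : ∀ b I, AnalyticAt ℂ (fun z => U b z I) z₀)
    (hP : ∀ᶠ z in 𝓝 z₀, ∃ᶠ z' in 𝓝 z, Gd fun b => U b z') (hT0 : Prim T z₀)
    (hga : AnalyticAt ℂ g z₀)
    (hten : ∀ᶠ z in 𝓝 z₀, ∀ I J, Phi (fun b => U b z) I J = g z * T z I * T z J) :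
    ∃ η : Fin 6 → Fin 3 → (Fin 6 → ℂ) → ℂ, (∀ k j, AnalyticAt ℂ (η k j) z₀) ∧
      ∀ᶠ z in 𝓝 z₀, ∀ k, g z • (eps k *ᵥ T z) = ∑ j, η k j z • U j z := by
  have hTa : ∀ I, AnalyticAt ℂ (fun z => T z I) z₀ := fun I => an_comp hT0.an I
  have hgood := good_of_ten (U := U) hten
  have hη : ∀ k j, ∃ η : (Fin 6 → ℂ) → ℂ, AnalyticAt ℂ η z₀ ∧ ∀ᶠ z in 𝓝 z₀,
      Hk (fun b => U b z) k j = η z • T z := by
    intro k j
    refine hT0.dvd (fun z => Hk (fun b => U b z) k j) (analyticAt_pi_iff.2 fun I => an_Hk hU k j I) ?_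
    unfold Par
    simp only [eventually_all]
    intro I K
    have h1 := closure_eq (f := fun z => Hk (fun b => U b z) k j I * T z K -
      Hk (fun b => U b z) k j K * T z I) (((an_Hk hU k j I).mul (hTa K)).sub
        ((an_Hk hU k j K).mul (hTa I))) hP (by
        filter_upwards [hgood] with z h1 hz
        obtain ⟨t, a, τ, hτ0, hτT, hg0, h2, h3, -, h4⟩ := h1 hz
        obtain ⟨η, h5, -⟩ := Hk_dec (u := fun b => U b z) h2 h3
        rw [h5 k j, hτT]
        simp only [Pi.smul_apply, smul_eq_mul]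
        ring)
    filter_upwards [h1] with z hz
    exact sub_eq_zero.1 hz
  choose η hηa hη1 using hη
  refine ⟨fun k j z => -η k j z, fun k j => (hηa k j).neg, ?_⟩
  have hη2 : ∀ᶠ z in 𝓝 z₀, ∀ k j, Hk (fun b => U b z) k j = η k j z • T z := by
    simp only [eventually_all]
    exact hη1
  rw [eventually_all]
  intro k
  have h1 : ∀ I, ∀ᶠ z in 𝓝 z₀, g z * (eps k *ᵥ T z) I - ∑ j, -η k j z * U j z I = 0 := by
    intro I
    refine closure_eq (P := fun z => Gd fun b => U b z) ((hga.mul (an_mulVec _ hTa I)).sub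
      (Finset.analyticAt_fun_sum _ fun j _ => (hηa k j).neg.mul (hU j I))) hP ?_
    filter_upwards [hgood, hη2] with z h1 h6 hz
    obtain ⟨t, a, τ, hτ0, hτT, hg0, h2, h3, h8, h4⟩ := h1 hz
    obtain ⟨η', h5, h7⟩ := Hk_dec (u := fun b => U b z) h2 h3
    obtain ⟨M, hM⟩ := Function.ne_iff.1 h8
    have hM' : dec3 t M ≠ 0 := hM
    have h9 : ∀ j, η' k j = η k j z * τ := by
      intro j
      have h10 := congrFun (h5 k j) M
      rw [h6 k j, hτT] at h10
      simp only [Pi.smul_apply, smul_eq_mul] at h10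
      have h11 : (η' k j - η k j z * τ) * dec3 t M = 0 := by linear_combination -h10
      have h12 := (mul_eq_zero.1 h11).resolve_right hM'
      linear_combination h12
    have h10 := congrFun (h7 k) I
    simp only [Pi.smul_apply, smul_eq_mul, Finset.sum_apply, h9] at h10
    rw [hτT, Matrix.mulVec_smul, Pi.smul_apply, smul_eq_mul]
    have h11 : (∑ j, -η k j z * U j z I) = -∑ j, η k j z * U j z I := by
      rw [← Finset.sum_neg_distrib]
      exact Finset.sum_congr rfl fun j _ => by ring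
    have h12 : (∑ j, η k j z * τ * U j z I) = τ * ∑ j, η k j z * U j z I := by
      rw [Finset.mul_sum]
      exact Finset.sum_congr rfl fun j _ => by ring
    rw [h12] at h10
    rw [h11]
    have h13 : τ * (g z * (τ * (eps k *ᵥ dec3 t) I) - -∑ j, η k j z * U j z I) = 0 := by
      linear_combination (eps k *ᵥ dec3 t) I * h4 - h10
    exact (mul_eq_zero.1 h13).resolve_left hτ0
  have h2 : ∀ᶠ z in 𝓝 z₀, ∀ I, g z * (eps k *ᵥ T z) I - ∑ j, -η k j z * U j z I = 0 :=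
    eventually_all.2 h1
  filter_upwards [h2] with z hz
  funext I
  have h3 := sub_eq_zero.1 (hz I)
  simp only [Pi.smul_apply, smul_eq_mul, Finset.sum_apply]
  exact h3

/-- the degree of the primitive form -/
theorem deg_of_ten (hP : ∀ᶠ z in 𝓝 z₀, ∃ᶠ z' in 𝓝 z, Gd fun b => U b z')
    (hTa : ∀ I, AnalyticAt ℂ (fun z => T z I) z₀)
    (hten : ∀ᶠ z in 𝓝 z₀, ∀ I J, Phi (fun b => U b z) I J = g z * T z I * T z J) :
    ∀ᶠ z in 𝓝 z₀, ∀ I : FI 6, I.card ≠ 3 → T z I = 0 := by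
  rw [eventually_all]
  intro I
  by_cases hI : I.card = 3
  · exact Eventually.of_forall fun z h => absurd hI h
  · have h1 := closure_eq (hTa I) hP (by
      filter_upwards [good_of_ten (U := U) hten] with z h1 hz
      obtain ⟨t, a, τ, hτ0, hτT, -⟩ := h1 hz
      rw [hτT, Pi.smul_apply, dec3_deg t hI, smul_zero])
    filter_upwards [h1] with z hz _ using hz

end Vale.Agent.P301.H395
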