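import Vale.Agent.P301.H395.Gen

/-!
# P301, package N3-M: the line bundle of the primitive form
-/

open scoped Manifold ContDiff ComplexOrder Topology Matrix
open Filter Metric Set
open Vale.Agent.P272.K Vale.Agent.P299 Vale.Agent.P299.IX Vale.Agent.P299.IX.Fock
open Vale.Agent.P301.H599
open Vale.Agent.P301.H724 (IsSec Nz HasSec wedge mnr lamPow isSec_wedge at_chartAt isOpen_dom)
open Vale.Agent.P301.H897 (LamF)
open Vale.Agent.P301.H508 (Prim Par AnX PrimX ev_chart ev_of_chart zero_or an_comp ne_iff tsymm)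

noncomputable section

namespace Vale.Agent.P301.H395

/-! ### primitivity under twists -/

section prim

variable {E : Type*} [NormedAddCommGroup E] [NormedSpace ℂ E] {κ : Type} [Fintype κ]

theorem prim_congr {e e' : E → κ → ℂ} {y : E} (h : Prim e y) (h1 : e =ᶠ[𝓝 y] e') : Prim e' y := by
  refine ⟨h.an.congr h1, fun h2 => h.ne ?_, fun v hv hpar => ?_⟩
  · filter_upwards [h1, h2] with z h3 h4
    rw [h3, h4]
  · obtain ⟨t, ht, ht1⟩ := h.dvd v hv (by
      filter_upwards [h1, hpar] with z h3 h4 i j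
      rw [h3]
      exact h4 i j)
    refine ⟨t, ht, ?_⟩
    filter_upwards [h1, ht1] with z h3 h4
    rw [h4, h3]

theorem prim_twist [DecidableEq κ] {e : E → κ → ℂ} {y : E} (h : Prim e y) {c : E → ℂ} {A B : E → Matrix κ κ ℂ}
    (hc : AnalyticAt ℂ c y) (hc0 : c y ≠ 0) (hA : ∀ k l, AnalyticAt ℂ (fun z => A z k l) y)
    (hB : ∀ k l, AnalyticAt ℂ (fun z => B z k l) y)
    (hAB : ∀ᶠ z in 𝓝 y, A z * B z = 1 ∧ B z * A z = 1) :
    Prim (fun z => c z • (A z *ᵥ e z)) y := by
  have han : ∀ (M : E → Matrix κ κ ℂ) (w : E → κ → ℂ), (∀ k l, AnalyticAt ℂ (fun z => M z k l) y) →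
      AnalyticAt ℂ w y → AnalyticAt ℂ (fun z => M z *ᵥ w z) y := by
    intro M w hM hw
    rw [analyticAt_pi_iff]
    intro k
    simp only [Matrix.mulVec, dotProduct]
    exact Finset.analyticAt_fun_sum _ fun l _ => (hM k l).mul (an_comp hw l)
  refine ⟨hc.smul (han A e hA h.an), fun h2 => h.ne ?_, fun v hv hpar => ?_⟩
  · filter_upwards [h2, hAB, hc.continuousAt.eventually_ne hc0] with z h3 h4 h5
    have h6 := (smul_eq_zero.1 h3).resolve_left h5
    have h7 := congrArg (B z *ᵥ ·) h6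
    simp only [Matrix.mulVec_mulVec, Matrix.mulVec_zero] at h7
    rwa [h4.2, Matrix.one_mulVec] at h7
  · obtain ⟨t, ht, ht1⟩ := h.dvd (fun z => B z *ᵥ v z) (han B v hB hv) (by
      filter_upwards [hpar, hAB, hc.continuousAt.eventually_ne hc0] with z h3 h4 h5 i j
      have h6 : ∀ i j, v z i * (A z *ᵥ e z) j = v z j * (A z *ᵥ e z) i := by
        intro i j
        have h7 := h3 i j
        simp only [Pi.smul_apply, smul_eq_mul] at h7
        have h8 : c z * (v z i * (A z *ᵥ e z) j - v z j * (A z *ᵥ e z) i) = 0 := by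
          linear_combination h7
        exact sub_eq_zero.1 ((mul_eq_zero.1 h8).resolve_left h5)
      have h7 := par_mulVec h6 (B z) i j
      rw [Matrix.mulVec_mulVec, h4.2, Matrix.one_mulVec] at h7
      exact h7)
    refine ⟨fun z => t z * (c z)⁻¹, ht.mul (hc.inv hc0), ?_⟩
    filter_upwards [ht1, hAB, hc.continuousAt.eventually_ne hc0] with z h3 h4 h5
    have h6 := congrArg (A z *ᵥ ·) h3
    simp only [Matrix.mulVec_mulVec, Matrix.mulVec_smul] at h6
    rw [h4.1, Matrix.one_mulVec] at h6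
    rw [h6, smul_smul, mul_assoc, inv_mul_cancel₀ h5, mul_one]

end prim

/-- two tensors of rank one -/
theorem uniq_factor {E : Type*} [NormedAddCommGroup E] [NormedSpace ℂ E] {κ : Type*} [Fintype κ]
    {T : E → κ → ℂ} {y : E} (hT : Prim T y) {f g : E → ℂ} (hf : AnalyticAt ℂ f y)
    (hg : AnalyticAt ℂ g y) (h : ∀ᶠ z in 𝓝 y, ∀ I J, f z * (T z I * T z J) = g z * (T z I * T z J)) :
    f y = g y := by
  obtain ⟨k, hk⟩ := ne_iff.1 hT.ne
  have h1 := zero_or ((an_comp hT.an k).mul (an_comp hT.an k)) (hf.sub hg) (by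
    filter_upwards [h] with z hz
    have h2 := hz k k
    show T z k * T z k * (f z - g z) = 0
    linear_combination h2)
  rcases h1 with h2 | h2
  · exfalso
    apply hk
    filter_upwards [h2] with z hz
    exact mul_self_eq_zero.1 hz
  · exact sub_eq_zero.1 h2.self_of_nhds

variable {X : Type} [TopologicalSpace X] [ChartedSpace (Cm 6) X] {ι : Type}
  {L : LineBundle 6 X ι} {m : ℕ} {u : Fin 3 → ι → Chart 6 X → Cm 6 → FI 6 → ℂ}

/-- `Φ(u)` in the chart `e` and the trivialisation `i` -/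
def PhiS (u : Fin 3 → ι → Chart 6 X → Cm 6 → FI 6 → ℂ) (i : ι) (e : Chart 6 X) (z : Cm 6)
    (I J : FI 6) : ℂ := Phi (fun b => u b i e z) I J

theorem PhiS_chL (hu : ∀ b, IsSec L LamF m (u b)) {i j : ι} {e : Chart 6 X} {x : X} (he : At e x)
    (hi : x ∈ L.U i) (hj : x ∈ L.U j) (I J : FI 6) :
    PhiS u i e (e x) I J = L.g i j x ^ (3 * m) * PhiS u j e (e x) I J := by
  unfold PhiS
  have h1 : (fun b => u b i e (e x)) = fun b => (L.g i j x ^ m) • u b j e (e x) :=
    funext fun b => (hu b).chL i j e x he hi hj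
  rw [h1, Phi_smul (L.g i j x ^ m) (fun b => u b j e (e x)), ← pow_mul, mul_comm m 3]

theorem PhiS_chV (hu : ∀ b, IsSec L LamF m (u b)) {i : ι} {e e' : Chart 6 X} {x : X}
    (he : At e x) (he' : At e' x) (hi : x ∈ L.U i) (I J : FI 6) :
    PhiS u i e (e x) I J = (jacM e e' x).det *
      ∑ I', ∑ J', LamF e e' x I I' * LamF e e' x J J' * PhiS u i e' (e' x) I' J' := by
  unfold PhiS
  have h1 : (fun b => u b i e (e x)) = fun b => (LamF e e' x).mulVec (u b i e' (e' x)) :=
    funext fun b => (hu b).chV i e e' x he he' hi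
  rw [h1]
  unfold LamF
  rw [Phi_lam, Matrix.det_transpose]

/-- transport of a tensor of rank one -/
theorem PhiS_ten (hu : ∀ b, IsSec L LamF m (u b)) {i j : ι} {e e' : Chart 6 X} {x : X}
    (he : At e x) (he' : At e' x) (hi : x ∈ L.U i) (hj : x ∈ L.U j) {c : ℂ} {v : FI 6 → ℂ}
    (h : ∀ I J, PhiS u j e' (e' x) I J = c * v I * v J) (I J : FI 6) :
    PhiS u i e (e x) I J = L.g i j x ^ (3 * m) * (jacM e e' x).det * c *
      ((LamF e e' x *ᵥ v) I * (LamF e e' x *ᵥ v) J) := by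
  rw [PhiS_chL hu he hi hj, PhiS_chV hu he he' hj]
  have h1 : (LamF e e' x *ᵥ v) I * (LamF e e' x *ᵥ v) J =
      ∑ I', ∑ J', (LamF e e' x I I' * v I') * (LamF e e' x J J' * v J') := by
    simp only [Matrix.mulVec, dotProduct]
    rw [Finset.sum_mul_sum]
  rw [h1, Finset.mul_sum, Finset.mul_sum, Finset.mul_sum]
  refine Finset.sum_congr rfl fun I' _ => ?_
  rw [Finset.mul_sum, Finset.mul_sum, Finset.mul_sum]
  refine Finset.sum_congr rfl fun J' _ => ?_
  rw [h]
  ring

/-! ### the local data at all points -/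

/-- the chart at the point -/
abbrev ch (x : X) : Chart 6 X := chartAt (Cm 6) x

variable (L) in
/-- a trivialisation at the point -/
def ix (x : X) : ι := (L.cover x).choose

theorem ix_mem (x : X) : x ∈ L.U (ix L x) := (L.cover x).choose_spec

/-- local data on a neighbourhood of `x` -/
structure LD (L : LineBundle 6 X ι) (u : Fin 3 → ι → Chart 6 X → Cm 6 → FI 6 → ℂ) (x : X) where
  V : Set X
  T : Cm 6 → FI 6 → ℂ
  g : Cm 6 → ℂ
  isOpen : IsOpen V
  mem : x ∈ V
  at' : ∀ y ∈ V, At (ch x) y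
  dom : ∀ y ∈ V, y ∈ L.U (ix L x)
  prim : ∀ y ∈ V, Prim T (ch x y)
  an : ∀ y ∈ V, AnalyticAt ℂ g (ch x y)
  ten : ∀ y ∈ V, ∀ I J, PhiS u (ix L x) (ch x) (ch x y) I J = g (ch x y) * T (ch x y) I * T (ch x y) J

theorem exists_LD (hu : ∀ b, IsSec L LamF m (u b))
    (hd : Dense {x : X | ∀ i (e : Chart 6 X), At e x → x ∈ L.U i → Gd fun b => u b i e (e x)})
    (x : X) : Nonempty (LD L u x) := by
  have hx : At (ch x) x := at_chartAt x
  obtain ⟨T, g, h1, h2, h3⟩ := exists_prim (U := fun b => u b (ix L x) (ch x)) (z₀ := ch x x)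
    (fun b I => (hu b).holo _ _ x hx (ix_mem x) I) (hP_of_dense hd hx (ix_mem x))
  have h4 : ∀ᶠ y in 𝓝 x, At (ch x) y ∧ y ∈ L.U (ix L x) ∧ Prim T (ch x y) ∧
      AnalyticAt ℂ g (ch x y) ∧ ∀ I J, PhiS u (ix L x) (ch x) (ch x y) I J =
        g (ch x y) * T (ch x y) I * T (ch x y) J := by
    have ht : Tendsto (ch x) (𝓝 x) (𝓝 (ch x x)) := ((ch x).continuousAt hx.2).tendsto
    filter_upwards [Vale.Agent.P301.H724.at_eventually hx, (L.isOpen _).mem_nhds (ix_mem (L := L) x),
      ht.eventually h1, ht.eventually h2.eventually_analyticAt, ht.eventually h3]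
      with y h5 h6 h7 h8 h9
    exact ⟨h5, h6, h7, h8, h9⟩
  obtain ⟨V, hV, hVo, hxV⟩ := mem_nhds_iff.1 h4
  exact ⟨⟨V, T, g, hVo, hxV, fun y hy => (hV hy).1, fun y hy => (hV hy).2.1,
    fun y hy => (hV hy).2.2.1, fun y hy => (hV hy).2.2.2.1, fun y hy => (hV hy).2.2.2.2⟩⟩

variable [IsManifold 𝓘(ℂ, Cm 6) ω X]

/-- the primitive vector in an arbitrary chart -/
theorem LD.primX {x : X} (D : LD L u x) {y : X} (hy : y ∈ D.V) :
    PrimX (d := 6) (fun y => D.T (ch x y)) y := by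
  refine PrimX.of_chart (D.at' y hy) (prim_congr (D.prim y hy) ?_)
  filter_upwards [(ch x).open_target.mem_nhds ((ch x).map_source (D.at' y hy).2)] with z hz
  show D.T z = D.T (ch x ((ch x).symm z))
  rw [(ch x).right_inv hz]

theorem LD.anX {x : X} (D : LD L u x) {y : X} (hy : y ∈ D.V) :
    AnX (d := 6) (fun y => D.g (ch x y)) y := by
  refine AnX.of_chart (D.at' y hy) ((D.an y hy).congr ?_)
  filter_upwards [(ch x).open_target.mem_nhds ((ch x).map_source (D.at' y hy).2)] with z hz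
  rw [(ch x).right_inv hz]

theorem anX_lineG {i j : ι} {x : X} (hi : x ∈ L.U i) (hj : x ∈ L.U j) :
    AnX (d := 6) (fun y => L.g i j y) x := fun e he => L.holo i j e x he hi hj

theorem anX_det {e e' : Chart 6 X} {x : X} (he : At e x) (he' : At e' x) :
    AnX (d := 6) (fun y => (jacM e e' y).det) x :=
  AnX.of_chart he (jacM_det_holo he he').analyticAt

theorem _root_.Vale.Agent.P301.H508.AnX.mul' {f g : X → ℂ} {x : X} (hf : AnX (d := 6) f x)
    (hg : AnX (d := 6) g x) : AnX (d := 6) (fun y => f y * g y) x :=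
  fun e he => (hf e he).mul (hg e he)

theorem _root_.Vale.Agent.P301.H508.AnX.pow' {f : X → ℂ} {x : X} (hf : AnX (d := 6) f x) (k : ℕ) :
    AnX (d := 6) (fun y => f y ^ k) x := fun e he => (hf e he).pow k

/-- uniqueness of the factor, on `X` -/
theorem uniqX {T : X → FI 6 → ℂ} {y : X} (hT : PrimX (d := 6) T y) {f g : X → ℂ}
    (hf : AnX (d := 6) f y) (hg : AnX (d := 6) g y)
    (h : ∀ᶠ z in 𝓝 y, ∀ I J, f z * (T z I * T z J) = g z * (T z I * T z J)) : f y = g y := by
  have he : At (ch y) y := at_chartAt y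
  have h1 := uniq_factor (hT _ he) (hf _ he) (hg _ he) (ev_chart he h)
  rwa [(ch y).left_inv he.2] at h1

/-- the factor does not vanish identically -/
theorem LD.g_ne {x : X} (D : LD L u x)
    (hd : Dense {x : X | ∀ i (e : Chart 6 X), At e x → x ∈ L.U i → Gd fun b => u b i e (e x)})
    {O : Set X} (hO : IsOpen O) {y : X} (hyO : y ∈ O) (hy : y ∈ D.V) :
    ∃ z ∈ O, z ∈ D.V ∧ D.g (ch x z) ≠ 0 := by
  obtain ⟨z, hz, hzd⟩ := hd.inter_open_nonempty (O ∩ D.V) (hO.inter D.isOpen) ⟨y, hyO, hy⟩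
  refine ⟨z, hz.1, hz.2, fun h0 => ?_⟩
  obtain ⟨t, a, c, hc, -, -, hne, hten⟩ := (hzd (ix L x) (ch x) (D.at' z hz.2) (D.dom z hz.2)).ten
  obtain ⟨I, hI⟩ := Function.ne_iff.1 hne
  have h1 := D.ten z hz.2 I I
  have h2 := hten I I
  unfold PhiS at h1
  rw [h1, h0] at h2
  simp only [zero_mul] at h2
  exact mul_ne_zero (neg_ne_zero.2 hc) (mul_ne_zero hI hI) h2.symm

theorem LD.g_not_zero {x : X} (D : LD L u x)
    (hd : Dense {x : X | ∀ i (e : Chart 6 X), At e x → x ∈ L.U i → Gd fun b => u b i e (e x)})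
    {e : Chart 6 X} {y : X} (he : At e y) (hy : y ∈ D.V) :
    ¬ ∀ᶠ z in 𝓝 (e y), D.g (ch x (e.symm z)) = 0 := by
  intro h
  obtain ⟨O, hO, hOo, hyO⟩ := mem_nhds_iff.1 (ev_of_chart (p := fun z => D.g (ch x z) = 0) he h)
  obtain ⟨z, hzO, -, hz0⟩ := D.g_ne hd hOo hyO hy
  exact hz0 (hO hzO)

/-- the vectors of two local data are parallel -/
theorem LD.par (hu : ∀ b, IsSec L LamF m (u b))
    (hd : Dense {x : X | ∀ i (e : Chart 6 X), At e x → x ∈ L.U i → Gd fun b => u b i e (e x)})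
    {x x' : X} (D : LD L u x) (D' : LD L u x') {y : X} (hy : y ∈ D.V) (hy' : y ∈ D'.V) :
    ∀ᶠ z in 𝓝 y, ∀ k l, D.T (ch x z) k * (LamF (ch x) (ch x') z *ᵥ D'.T (ch x' z)) l =
      D.T (ch x z) l * (LamF (ch x) (ch x') z *ᵥ D'.T (ch x' z)) k := by
  have he := D.at' y hy
  set e := ch x with hedef
  set v : X → FI 6 → ℂ := fun z => LamF (ch x) (ch x') z *ᵥ D'.T (ch x' z) with hv
  have hTa : ∀ k, AnalyticAt ℂ (fun z => D.T (e (e.symm z)) k) (e y) := fun k =>
    an_comp ((D.primX hy) e he).an k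
  have hTa' : ∀ k, AnalyticAt ℂ (fun z => D'.T (ch x' (e.symm z)) k) (e y) := fun k =>
    an_comp ((D'.primX hy') e he).an k
  have hva : ∀ k, AnalyticAt ℂ (fun z => v (e.symm z) k) (e y) := fun k =>
    an_mulVecX (A := fun z => LamF (ch x) (ch x') z) (w := fun z => D'.T (ch x' z))
      (fun k l => anX_LamF he (D'.at' y hy') k l e he) hTa' k
  have hga : AnalyticAt ℂ (fun z => D.g (e (e.symm z))) (e y) := (D.anX hy) e he
  obtain ⟨M, hM⟩ := ne_iff.1 ((D.primX hy) e he).ne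
  have hkey : ∀ᶠ z in 𝓝 y, ∀ I J, D.g (e z) * (D.T (e z) I * D.T (e z) J) =
      (L.g (ix L x) (ix L x') z ^ (3 * m) * (jacM (ch x) (ch x') z).det * D'.g (ch x' z)) *
        (v z I * v z J) := by
    filter_upwards [D.isOpen.mem_nhds hy, D'.isOpen.mem_nhds hy'] with z hz hz' I J
    have h1 := D.ten z hz I J
    have h2 := PhiS_ten hu (D.at' z hz) (D'.at' z hz') (D.dom z hz) (D'.dom z hz')
      (D'.ten z hz') I J
    rw [h1] at h2
    rw [← mul_assoc]
    exact h2
  have h1 : ∀ k l, ∀ᶠ z in 𝓝 (e y), D.T (e (e.symm z)) k * v (e.symm z) l -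
      D.T (e (e.symm z)) l * v (e.symm z) k = 0 := by
    intro k l
    have h2 := zero_or hga ((hTa M).mul (((hTa k).mul (hva l)).sub ((hTa l).mul (hva k)))) (by
      filter_upwards [ev_chart he hkey] with z hz
      have h3 := hz k M
      have h4 := hz l M
      show D.g (e (e.symm z)) * (D.T (e (e.symm z)) M * (D.T (e (e.symm z)) k * v (e.symm z) l -
        D.T (e (e.symm z)) l * v (e.symm z) k)) = 0
      linear_combination (v (e.symm z) l) * h3 - (v (e.symm z) k) * h4)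
    have h3 := h2.resolve_left (D.g_not_zero hd he hy)
    exact (zero_or (hTa M) (((hTa k).mul (hva l)).sub ((hTa l).mul (hva k))) h3).resolve_left hM
  refine ev_of_chart he ?_
  filter_upwards [eventually_all.2 fun k => eventually_all.2 fun l => h1 k l] with z hz k l
  exact sub_eq_zero.1 (hz k l)

/-- **The line bundle.** -/
theorem exists_W (hu : ∀ b, IsSec L LamF m (u b))
    (hd : Dense {x : X | ∀ i (e : Chart 6 X), At e x → x ∈ L.U i → Gd fun b => u b i e (e x)})
    (D : ∀ x, LD L u x) : ∃ W : LineBundle 6 X X, (∀ x, W.U x = (D x).V) ∧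
      ∀ x x' y, y ∈ (D x).V → y ∈ (D x').V → (D x).T (ch x y) =
        W.g x x' y • (LamF (ch x) (ch x') y *ᵥ (D x').T (ch x' y)) := by
  classical
  obtain ⟨W, hW, h⟩ := MatData.glue (d := 6) (X := X) (K := FI 6)
    { U := fun x => (D x).V
      isOpen := fun x => (D x).isOpen
      mem := fun x => (D x).mem
      T := fun x y => (D x).T (ch x y)
      prim := fun x z hz => (D x).primX hz
      A := fun x x' y => LamF (ch x) (ch x') y
      A_an := fun x x' z hz hz' k l => anX_LamF ((D x).at' z hz) ((D x').at' z hz') k l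
      A_one := fun x z hz => LamF_self ((D x).at' z hz)
      A_coc := fun x y w z h1 h2 h3 => LamF_comp ((D x).at' z h1) ((D y).at' z h2) ((D w).at' z h3)
      par := fun x x' y hy hy' => (D x).par hu hd (D x') hy hy' }
  exact ⟨W, fun x => congrFun hW x, h⟩

end Vale.Agent.P301.H395
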