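import Vale.Agent.P301.H395.MB

/-!
# P301, package N3-M: the output
-/

open scoped Manifold ContDiff ComplexOrder Topology Matrix
open Filter Metric Set
open Vale.Agent.P272.K Vale.Agent.P299 Vale.Agent.P299.IX Vale.Agent.P299.IX.Fock
open Vale.Agent.P301.H599
open Vale.Agent.P301.H724 (IsSec Nz HasSec wedge mnr lamPow isSec_wedge at_chartAt isOpen_dom)
open Vale.Agent.P301.H897 (LamF)
open Vale.Agent.P301.H508 (Prim Par AnX PrimX ev_chart ev_of_chart zero_or an_comp ne_iff tsymm)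
open Vale.Agent.P301.H949 (IsoPow tw)

noncomputable section

namespace Vale.Agent.P301.H395

section defs

variable {d : ℕ} {X : Type} [TopologicalSpace X] [ChartedSpace (Cm d) X] {ι κ : Type}

/-- sections of `L^k`, `k` an integer -/
structure IntSec (L : LineBundle d X ι) (k : ℤ) (f : ι → X → ℂ) : Prop where
  holo : ∀ i (e : Chart d X) x, At e x → x ∈ L.U i → AnalyticAt ℂ (fun z => f i (e.symm z)) (e x)
  ch : ∀ i j x, x ∈ L.U i → x ∈ L.U j → f i x = L.g i j x ^ k * f j x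

/-- forms with values in `L^k`, `k` an integer -/
structure IntForm (L : LineBundle d X ι) (k : ℤ) (β : ι → Chart d X → Cm d → FI d → ℂ) :
    Prop where
  holo : ∀ i e x, At e x → x ∈ L.U i → ∀ a, AnalyticAt ℂ (fun z => β i e z a) (e x)
  chL : ∀ i j e x, At e x → x ∈ L.U i → x ∈ L.U j →
    β i e (e x) = L.g i j x ^ k • β j e (e x)
  chV : ∀ i e e' x, At e x → At e' x → x ∈ L.U i →
    β i e (e x) = (LamF e e' x).mulVec (β i e' (e' x))

/-- the dual bundle -/
def invB (W : LineBundle d X κ) : LineBundle d X κ where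
  U := W.U
  isOpen := W.isOpen
  cover := W.cover
  g i j x := (W.g i j x)⁻¹
  holo i j e x he hi hj := (W.holo i j e x he hi hj).inv (by
    rw [e.left_inv he.2]
    exact W.ne_zero i j x hi hj)
  ne_zero i j x hi hj := inv_ne_zero (W.ne_zero i j x hi hj)
  cocycle i j k x hi hj hk := by rw [← mul_inv, W.cocycle i j k x hi hj hk]

/-- a nowhere vanishing form of top degree -/
structure Vol (π : Chart d X → Cm d → ℂ) : Prop where
  holo : ∀ e x, At e x → AnalyticAt ℂ (π e) (e x)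
  ne : ∀ e x, At e x → π e (e x) ≠ 0
  change : ∀ e e' x, At e x → At e' x → π e (e x) = (jacM e e' x).det * π e' (e' x)

theorem g_one (L : LineBundle d X ι) {i : ι} {x : X} (hi : x ∈ L.U i) : L.g i i x = 1 := by
  have h1 := L.cocycle i i i x hi hi hi
  have h2 := L.ne_zero i i x hi hi
  exact mul_right_cancel₀ h2 (by rw [h1, one_mul])

/-- the volume form of a symplectic form -/
theorem vol_symp {n : ℕ} (hd : d = 2 * n) {w s : Chart d X → Cm d → Matrix (Fin d) (Fin d) ℂ}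
    (h : IsSymplectic d X w s) : Vol (fun e z => Vale.Agent.P301.H85.pfc n (s e z)) where
  holo e x he := Vale.Agent.P301.H85.an_sPow (fun i j => h.form.holo e x he i j) n _
  ne e x he := Vale.Agent.P301.H85.pfc_ne_zero hd (h.form.alt e x he) (h.nondeg e x he)
  change e e' x he he' := by
    show Vale.Agent.P301.H85.pfc n (s e (e x)) = _ * Vale.Agent.P301.H85.pfc n (s e' (e' x))
    rw [← Matrix.det_transpose, ← Vale.Agent.P301.H85.pfc_change, h.form.change e e' x he he',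
      Matrix.transpose_transpose]

end defs

variable {X : Type} [TopologicalSpace X] [ChartedSpace (Cm 6) X] {ι : Type}
  {L : LineBundle 6 X ι} {m : ℕ} {u : Fin 3 → ι → Chart 6 X → Cm 6 → FI 6 → ℂ}
  [IsManifold 𝓘(ℂ, Cm 6) ω X] {π : Chart 6 X → Cm 6 → ℂ}

theorem Vol.anX (hπ : Vol π) {e : Chart 6 X} {x : X} (he : At e x) :
    AnX (d := 6) (fun y => π e (e y)) x := by
  refine AnX.of_chart he ((hπ.holo e x he).congr ?_)
  filter_upwards [e.open_target.mem_nhds (e.map_source he.2)] with z hz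
  rw [e.right_inv hz]

/-- the section `g` -/
def fS (L : LineBundle 6 X ι) (m : ℕ) (π : Chart 6 X → Cm 6 → ℂ)
    {u : Fin 3 → ι → Chart 6 X → Cm 6 → FI 6 → ℂ} (D : ∀ x, LD L u x) (x : X) (i : ι) (y : X) : ℂ :=
  (D x).g (ch x y) * L.g i (ix L x) y ^ (3 * m) * (π (ch x) (ch x y))⁻¹

/-- the transported vector -/
def tS (D : ∀ x, LD L u x) (x : X) (e : Chart 6 X) (y : X) : FI 6 → ℂ :=
  LamF e (ch x) y *ᵥ (D x).T (ch x y)

section sec

variable (hu : ∀ b, IsSec L LamF m (u b)) (hπ : Vol π) (D : ∀ x, LD L u x)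

include hu hπ in
theorem fS_ten {x : X} {i : ι} {e : Chart 6 X} {y : X} (hy : y ∈ (D x).V) (he : At e y)
    (hi : y ∈ L.U i) (I J : FI 6) : PhiS u i e (e y) I J =
      fS L m π D x i y * π e (e y) * (tS D x e y I * tS D x e y J) := by
  rw [PhiS_ten hu he ((D x).at' y hy) hi ((D x).dom y hy) ((D x).ten y hy),
    hπ.change e (ch x) y he ((D x).at' y hy)]
  unfold fS tS
  have h1 := hπ.ne (ch x) y ((D x).at' y hy)
  field_simp

include hπ in
theorem fS_an {x : X} {i : ι} {y : X} (hy : y ∈ (D x).V) (hi : y ∈ L.U i) :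
    AnX (d := 6) (fS L m π D x i) y := by
  intro e he
  exact (((D x).anX hy e he).mul ((L.holo i _ e y he hi ((D x).dom y hy)).pow _)).mul
    ((hπ.anX ((D x).at' y hy) e he).inv (by
      rw [e.left_inv he.2]
      exact hπ.ne _ _ ((D x).at' y hy)))

/-- the transported vectors of two local data -/
theorem tS_tr {W : LineBundle 6 X X}
    (hW : ∀ x x' y, y ∈ (D x).V → y ∈ (D x').V → (D x).T (ch x y) =
        W.g x x' y • (LamF (ch x) (ch x') y *ᵥ (D x').T (ch x' y)))
    {x x' : X} {e : Chart 6 X} {y : X} (hy : y ∈ (D x).V) (hy' : y ∈ (D x').V) (he : At e y) :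
    tS D x e y = W.g x x' y • tS D x' e y := by
  unfold tS
  rw [hW x x' y hy hy', Matrix.mulVec_smul, Matrix.mulVec_mulVec,
    LamF_comp he ((D x).at' y hy) ((D x').at' y hy')]

theorem tS_prim {x : X} {e : Chart 6 X} {y : X} (hy : y ∈ (D x).V) (he : At e y) {c : X → ℂ}
    (hc : AnX (d := 6) c y) (hc0 : c y ≠ 0) :
    Prim (fun z => c (e.symm z) • tS D x e (e.symm z)) (e y) := by
  refine prim_twist ((D x).primX hy e he) (hc e he) (by rwa [e.left_inv he.2])
    (fun k l => anX_LamF he ((D x).at' y hy) k l e he)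
    (B := fun z => LamF (ch x) e (e.symm z))
    (fun k l => anX_LamF ((D x).at' y hy) he k l e he) ?_
  refine ev_chart (p := fun z => LamF e (ch x) z * LamF (ch x) e z = 1 ∧
    LamF (ch x) e z * LamF e (ch x) z = 1) he ?_
  filter_upwards [(D x).isOpen.mem_nhds hy, Vale.Agent.P301.H724.at_eventually he] with z h1 h2
  have h3 := (D x).at' z h1
  rw [LamF_comp h2 h3 h2, LamF_comp h3 h2 h3, LamF_self h2, LamF_self h3]
  exact ⟨rfl, rfl⟩

include hu hπ in
/-- the transformation rule of `g` -/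
theorem fS_tr {W : LineBundle 6 X X} (hWU : ∀ x, W.U x = (D x).V)
    (hW : ∀ x x' y, y ∈ (D x).V → y ∈ (D x').V → (D x).T (ch x y) =
        W.g x x' y • (LamF (ch x) (ch x') y *ᵥ (D x').T (ch x' y)))
    {x x' : X} {i j : ι} {y : X} (hy : y ∈ (D x).V) (hy' : y ∈ (D x').V) (hi : y ∈ L.U i)
    (hj : y ∈ L.U j) :
    fS L m π D x i y * W.g x x' y ^ 2 = L.g i j y ^ (3 * m) * fS L m π D x' j y := by
  have hWan : AnX (d := 6) (fun z => W.g x x' z) y := fun e he =>
    W.holo x x' e y he (by rwa [hWU]) (by rwa [hWU])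
  refine uniqX (T := fun z => tS D x' (ch x') z) ?_
    (f := fun z => fS L m π D x i z * W.g x x' z ^ 2)
    (g := fun z => L.g i j z ^ (3 * m) * fS L m π D x' j z)
    ((fS_an hπ D hy hi).mul' (hWan.pow' 2))
    (((anX_lineG hi hj).pow' (3 * m)).mul' (fS_an hπ D hy' hj)) ?_
  · have h1 := tS_prim (c := fun _ => 1) D hy' ((D x').at' y hy') (fun e he => analyticAt_const)
      one_ne_zero
    refine PrimX.of_chart ((D x').at' y hy') (prim_congr h1 (Eventually.of_forall fun z => ?_))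
    show (1 : ℂ) • tS D x' (ch x') ((ch x').symm z) = _
    rw [one_smul]
  · filter_upwards [(D x).isOpen.mem_nhds hy, (D x').isOpen.mem_nhds hy', (L.isOpen i).mem_nhds hi,
      (L.isOpen j).mem_nhds hj] with z h1 h2 h3 h4 I J
    have he := (D x').at' z h2
    have h5 := fS_ten hu hπ D h1 he h3 I J
    have h6 := fS_ten hu hπ D h2 he h4 I J
    rw [PhiS_chL hu he h3 h4, h6, tS_tr D hW h1 h2 he] at h5
    simp only [Pi.smul_apply, smul_eq_mul] at h5
    have h7 := hπ.ne _ _ he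
    have h8 : π (ch x') (ch x' z) * (fS L m π D x i z * W.g x x' z ^ 2 *
        (tS D x' (ch x') z I * tS D x' (ch x') z J)) =
        π (ch x') (ch x' z) * (L.g i j z ^ (3 * m) * fS L m π D x' j z *
        (tS D x' (ch x') z I * tS D x' (ch x') z J)) := by
      linear_combination -h5
    exact mul_left_cancel₀ h7 h8

end sec

/-- **Package N3-M.** -/
theorem exists_M_of_dense (hu : ∀ b, IsSec L LamF m (u b)) (hπ : Vol π) [Nonempty X]
    (hd : Dense {x : X | ∀ i (e : Chart 6 X), At e x → x ∈ L.U i → Gd fun b => u b i e (e x)}) :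
    ∃ M : LineBundle 6 X X, HasSec (tw M 2 L (-(3 * (m : ℤ)))) 1 ∧
      ∀ k : ℤ, IsoPow M 1 L k → ∃ (β : ι → Chart 6 X → Cm 6 → FI 6 → ℂ) (G : ι → X → ℂ),
        IntForm L (-k) β ∧
        (∀ i e x, At e x → x ∈ L.U i → ∀ I : FI 6, I.card ≠ 3 → β i e (e x) I = 0) ∧
        (∃ i e x, At e x ∧ x ∈ L.U i ∧ β i e (e x) ≠ 0) ∧
        (∀ i e x, At e x → x ∈ L.U i → Prim (β i e) (e x)) ∧
        IntSec L (3 * m + 2 * k) G ∧ (∃ i x, x ∈ L.U i ∧ G i x ≠ 0) ∧
        ∀ i e x, At e x → x ∈ L.U i → ∃ η : Fin 6 → Fin 3 → Cm 6 → ℂ,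
          (∀ l j, AnalyticAt ℂ (η l j) (e x)) ∧
          ∀ᶠ z in 𝓝 (e x), ∀ l, G i (e.symm z) • (eps l *ᵥ β i e z) = ∑ j, η l j z • u j i e z := by
  classical
  have hD : ∀ x, Nonempty (LD L u x) := exists_LD hu hd
  set D : ∀ x, LD L u x := fun x => (hD x).some with hDdef
  obtain ⟨W, hWU, hW⟩ := exists_W hu hd D
  have hWU' : ∀ {x y}, y ∈ (D x).V → y ∈ W.U x := fun {x y} h => by rw [hWU]; exact h
  refine ⟨invB W, ⟨fun k y => fS L m π D k.1 k.2 y, ?_, ?_, ?_⟩, ?_⟩
  · intro k e x he hk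
    have h1 : x ∈ (D k.1).V := by rw [← hWU]; exact hk.1
    exact fS_an hπ D h1 hk.2 e he
  · intro k l y hk hl
    have h1 : y ∈ (D k.1).V := by rw [← hWU]; exact hk.1
    have h2 : y ∈ (D l.1).V := by rw [← hWU]; exact hl.1
    have h3 := fS_tr hu hπ D hWU hW h1 h2 hk.2 hl.2
    have h4 : W.g k.1 l.1 y ≠ 0 := W.ne_zero _ _ _ hk.1 hl.1
    show fS L m π D k.1 k.2 y = (((W.g k.1 l.1 y)⁻¹ ^ 2 *
      (L.g k.2 l.2 y ^ (-(3 * (m : ℤ))))⁻¹)) ^ 1 * fS L m π D l.1 l.2 y
    have h5 : (L.g k.2 l.2 y ^ (-(3 * (m : ℤ))))⁻¹ = L.g k.2 l.2 y ^ (3 * m) := by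
      rw [zpow_neg, inv_inv]
      have : (3 * (m : ℤ)) = ((3 * m : ℕ) : ℤ) := by push_cast; ring
      rw [this, zpow_natCast]
    rw [h5, pow_one]
    field_simp
    linear_combination h3
  · obtain ⟨x⟩ := ‹Nonempty X›
    obtain ⟨z, -, hz, hz0⟩ := (D x).g_ne hd isOpen_univ (mem_univ x) (D x).mem
    refine ⟨(x, ix L x), z, ⟨hWU' hz, (D x).dom z hz⟩, ?_⟩
    exact mul_ne_zero (mul_ne_zero hz0 (pow_ne_zero _ (L.ne_zero _ _ _ ((D x).dom z hz)
      ((D x).dom z hz)))) (inv_ne_zero (hπ.ne _ _ ((D x).at' z hz)))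
  · rintro k ⟨h, hh1, hh2⟩
    -- invariance in `x`
    have hhx : ∀ {x x' : X} {i : ι} {y : X}, y ∈ (D x).V → y ∈ (D x').V → y ∈ L.U i →
        h x i y * W.g x x' y = h x' i y := by
      intro x x' i y h1 h2 h3
      have h4 := hh2 x x' i i y (hWU' h1) (hWU' h2) h3 h3
      have h5 : W.g x x' y ≠ 0 := W.ne_zero _ _ _ (hWU' h1) (hWU' h2)
      rw [h4, g_one L h3]
      show (W.g x x' y)⁻¹ ^ 1 * (1 ^ k)⁻¹ * h x' i y * W.g x x' y = _
      rw [one_zpow]
      field_simp
    have hhi : ∀ {x : X} {i j : ι} {y : X}, y ∈ (D x).V → y ∈ L.U i → y ∈ L.U j →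
        h x i y = (L.g i j y ^ k)⁻¹ * h x j y := by
      intro x i j y h1 h2 h3
      have h4 := hh2 x x i j y (hWU' h1) (hWU' h1) h2 h3
      rw [h4]
      show (W.g x x y)⁻¹ ^ 1 * (L.g i j y ^ k)⁻¹ * h x j y = _
      rw [g_one W (hWU' h1)]
      simp
    have hne : ∀ {x : X} {i : ι} {y : X}, y ∈ (D x).V → y ∈ L.U i → h x i y ≠ 0 :=
      fun {x i y} h1 h2 => (hh1 x i y (hWU' h1) h2).2
    have han : ∀ {x : X} {i : ι} {y : X}, y ∈ (D x).V → y ∈ L.U i → AnX (d := 6) (h x i) y :=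
      fun {x i y} h1 h2 => (hh1 x i y (hWU' h1) h2).1
    set β : ι → Chart 6 X → Cm 6 → FI 6 → ℂ := fun i e z =>
      h (e.symm z) i (e.symm z) • tS D (e.symm z) e (e.symm z) with hβ
    set G : ι → X → ℂ := fun i y => fS L m π D y i y * ((h y i y)⁻¹) ^ 2 with hG
    have hβx : ∀ {x : X} {i : ι} {e : Chart 6 X} {y : X}, y ∈ (D x).V → At e y → y ∈ L.U i →
        h y i y • tS D y e y = h x i y • tS D x e y := by
      intro x i e y h1 h2 h3
      rw [tS_tr D hW (D y).mem h1 h2, smul_smul, hhx (D y).mem h1 h3]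
    have hβy : ∀ {x : X} {i : ι} {e : Chart 6 X} {y : X}, y ∈ (D x).V → At e y → y ∈ L.U i →
        β i e (e y) = h x i y • tS D x e y := by
      intro x i e y h1 h2 h3
      rw [hβ]
      simp only
      rw [e.left_inv h2.2, hβx h1 h2 h3]
    have hβe : ∀ {x : X} {i : ι} {e : Chart 6 X}, At e x → x ∈ L.U i →
        (fun z => h x i (e.symm z) • tS D x e (e.symm z)) =ᶠ[𝓝 (e x)] β i e := by
      intro x i e he hi
      have h1 : ∀ᶠ z in 𝓝 (e x), (e.symm z ∈ (D x).V ∧ e.symm z ∈ L.U i ∧ At e (e.symm z)) :=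
        ev_chart (p := fun y => y ∈ (D x).V ∧ y ∈ L.U i ∧ At e y) he (by
          filter_upwards [(D x).isOpen.mem_nhds (D x).mem, (L.isOpen i).mem_nhds hi,
            Vale.Agent.P301.H724.at_eventually he] with y a1 a2 a3 using ⟨a1, a2, a3⟩)
      filter_upwards [h1] with z hz
      exact (hβx hz.1 hz.2.2 hz.2.1).symm
    have hprim : ∀ i e x, At e x → x ∈ L.U i → Prim (β i e) (e x) := by
      intro i e x he hi
      exact prim_congr (tS_prim D (D x).mem he (han (D x).mem hi) (hne (D x).mem hi)) (hβe he hi)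
    have hGx : ∀ {x : X} {i : ι} {y : X}, y ∈ (D x).V → y ∈ L.U i →
        G i y = fS L m π D x i y * ((h x i y)⁻¹) ^ 2 := by
      intro x i y h1 h2
      have h3 := fS_tr hu hπ D hWU hW (D y).mem h1 h2 h2
      have h4 := hhx (D y).mem h1 h2
      have h5 := hne h1 h2
      have h6 := hne (D y).mem h2
      have h7 : W.g y x y ≠ 0 := W.ne_zero _ _ _ (hWU' (D y).mem) (hWU' h1)
      rw [g_one L h2, one_pow, one_mul] at h3
      show fS L m π D y i y * ((h y i y)⁻¹) ^ 2 = _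
      rw [← h3, ← h4]
      field_simp
    have hGan : ∀ {x : X} {i : ι} {e : Chart 6 X}, At e x → x ∈ L.U i →
        AnalyticAt ℂ (fun z => G i (e.symm z)) (e x) := by
      intro x i e he hi
      have h1 : AnalyticAt ℂ (fun z => fS L m π D x i (e.symm z) * ((h x i (e.symm z))⁻¹) ^ 2)
          (e x) := (fS_an hπ D (D x).mem hi e he).mul (((han (D x).mem hi e he).inv (by
            rw [e.left_inv he.2]
            exact hne (D x).mem hi)).pow 2)
      refine h1.congr ?_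
      have h2 : ∀ᶠ z in 𝓝 (e x), (e.symm z ∈ (D x).V ∧ e.symm z ∈ L.U i) :=
        ev_chart (p := fun y => y ∈ (D x).V ∧ y ∈ L.U i) he (by
          filter_upwards [(D x).isOpen.mem_nhds (D x).mem, (L.isOpen i).mem_nhds hi]
            with y a1 a2 using ⟨a1, a2⟩)
      filter_upwards [h2] with z hz
      exact (hGx hz.1 hz.2).symm
    have hten : ∀ {i : ι} {e : Chart 6 X} {x : X}, At e x → x ∈ L.U i → ∀ I J,
        PhiS u i e (e x) I J = G i x * π e (e x) * β i e (e x) I * β i e (e x) J := by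
      intro i e x he hi I J
      have h1 := fS_ten hu hπ D (D x).mem he hi I J
      have h2 := hne (D x).mem hi
      rw [h1, hGx (D x).mem hi, hβy (D x).mem he hi]
      simp only [Pi.smul_apply, smul_eq_mul]
      field_simp
    have hten' : ∀ {i : ι} {e : Chart 6 X} {x : X}, At e x → x ∈ L.U i → ∀ᶠ z in 𝓝 (e x),
        ∀ I J, Phi (fun b => u b i e z) I J = (G i (e.symm z) * π e z) * β i e z I * β i e z J := by
      intro i e x he hi
      have h1 : ∀ᶠ z in 𝓝 (e x), (e.symm z ∈ L.U i ∧ At e (e.symm z)) :=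
        ev_chart (p := fun y => y ∈ L.U i ∧ At e y) he (by
          filter_upwards [(L.isOpen i).mem_nhds hi,
            Vale.Agent.P301.H724.at_eventually he] with y a2 a3 using ⟨a2, a3⟩)
      filter_upwards [h1, e.open_target.mem_nhds (e.map_source he.2)] with z hz hz' I J
      have h2 := hten hz.2 hz.1 I J
      rw [e.right_inv hz'] at h2
      exact h2
    have hanβ : ∀ i e x, At e x → x ∈ L.U i → ∀ a, AnalyticAt ℂ (fun z => β i e z a) (e x) :=
      fun i e x he hi a => an_comp (hprim i e x he hi).an a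
    refine ⟨β, G, ⟨hanβ, ?_, ?_⟩, ?_, ?_, hprim, ⟨fun i e x he hi => hGan he hi, ?_⟩, ?_, ?_⟩
    · intro i j e x he hi hj
      rw [hβy (D x).mem he hi, hβy (D x).mem he hj, smul_smul, hhi (D x).mem hi hj, zpow_neg]
    · intro i e e' x he he' hi
      rw [hβy (D x).mem he hi, hβy (D x).mem he' hi, Matrix.mulVec_smul]
      unfold tS
      rw [Matrix.mulVec_mulVec, LamF_comp he he' ((D x).at' x (D x).mem)]
    · intro i e x he hi I hI
      exact (deg_of_ten (hP_of_dense hd he hi) (hanβ i e x he hi) (hten' he hi)).self_of_nhds I hI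
    · obtain ⟨x⟩ := ‹Nonempty X›
      have he : At (ch x) x := at_chartAt x
      have h1 := (hprim (ix L x) (ch x) x he (ix_mem x)).ne
      rw [Filter.not_eventually] at h1
      obtain ⟨z, hz1, hz2⟩ := (h1.and_eventually ((isOpen_dom L (ch x) (ix L x)).mem_nhds
        (show ch x x ∈ (ch x).target ∩ (ch x).symm ⁻¹' L.U (ix L x) from
          ⟨(ch x).map_source he.2, by
            show (ch x).symm (ch x x) ∈ L.U (ix L x)
            rw [(ch x).left_inv he.2]
            exact ix_mem x⟩))).exists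
      refine ⟨ix L x, ch x, (ch x).symm z, ⟨he.1, (ch x).map_target hz2.1⟩, hz2.2, ?_⟩
      rwa [(ch x).right_inv hz2.1]
    · intro i j x hi hj
      rw [hGx (D x).mem hi, hGx (D x).mem hj]
      have h3 := fS_tr hu hπ D hWU hW (D x).mem (D x).mem hi hj
      rw [g_one W (hWU' (D x).mem), one_pow, mul_one] at h3
      have h4 := L.ne_zero i j x hi hj
      have h5 := hne (D x).mem hj
      rw [h3, hhi (D x).mem hi hj]
      have h6 : L.g i j x ^ (3 * (m : ℤ) + 2 * k) = L.g i j x ^ (3 * m) * (L.g i j x ^ k) ^ 2 := by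
        have e1 : (3 * (m : ℤ)) = ((3 * m : ℕ) : ℤ) := by push_cast; ring
        have e2 : (2 * k) = k + k := by ring
        rw [zpow_add₀ h4, e1, zpow_natCast, e2, zpow_add₀ h4, pow_two]
      rw [h6]
      have h7 : L.g i j x ^ k ≠ 0 := zpow_ne_zero _ h4
      rw [mul_inv, inv_inv]
      ring
    · obtain ⟨x⟩ := ‹Nonempty X›
      obtain ⟨z, -, hz, hz0⟩ := (D x).g_ne hd isOpen_univ (mem_univ x) (D x).mem
      refine ⟨ix L x, z, (D x).dom z hz, ?_⟩
      rw [hGx hz ((D x).dom z hz)]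
      refine mul_ne_zero (mul_ne_zero (mul_ne_zero hz0 (pow_ne_zero _ (L.ne_zero _ _ _
        ((D x).dom z hz) ((D x).dom z hz)))) (inv_ne_zero (hπ.ne _ _ ((D x).at' z hz)))) ?_
      exact pow_ne_zero _ (inv_ne_zero (hne hz ((D x).dom z hz)))
    · intro i e x he hi
      obtain ⟨η, h1, h2⟩ := exists_coeff (U := fun b => u b i e) (T := β i e)
        (g := fun z => G i (e.symm z) * π e z) (fun b I => (hu b).holo i e x he hi I)
        (hP_of_dense hd he hi) (hprim i e x he hi) ((hGan he hi).mul (hπ.holo e x he))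
        (hten' he hi)
      have h0 := hπ.ne e x he
      refine ⟨fun l j z => η l j z * (π e z)⁻¹, fun l j => (h1 l j).mul ((hπ.holo e x he).inv h0),
        ?_⟩
      filter_upwards [h2, (hπ.holo e x he).continuousAt.eventually_ne h0] with z h3 h4 l
      have h5 := congrArg ((π e z)⁻¹ • ·) (h3 l)
      simp only [smul_smul, Finset.smul_sum] at h5
      have h6 : (π e z)⁻¹ * (G i (e.symm z) * π e z) = G i (e.symm z) := by
        field_simp
      rw [h6] at h5
      rw [h5]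
      exact Finset.sum_congr rfl fun j _ => by rw [mul_comm]

/-- **Package N3-M**, from decomposability at all points and generic independence. -/
theorem exists_M [PreconnectedSpace X] {w s : Chart 6 X → Cm 6 → Matrix (Fin 6) (Fin 6) ℂ}
    (h : IsSymplectic 6 X w s) (hu : ∀ b, IsSec L LamF m (u b))
    (hG : ∀ i (e : Chart 6 X) x, At e x → x ∈ L.U i →
      ∃ t : Fin 3 → Fin 6 → ℂ, ∀ b, ∃ a : Fin 6 → ℂ, u b i e (e x) = epsV a *ᵥ
        (epsV (t 0) *ᵥ (epsV (t 1) *ᵥ (epsV (t 2) *ᵥ ev ∅))))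
    (hw : ∃ i e x, At e x ∧ x ∈ L.U i ∧ wedge u i e (e x) ≠ 0) :
    ∃ M : LineBundle 6 X X, HasSec (tw M 2 L (-(3 * (m : ℤ)))) 1 ∧
      ∀ k : ℤ, IsoPow M 1 L k → ∃ (β : ι → Chart 6 X → Cm 6 → FI 6 → ℂ) (G : ι → X → ℂ),
        IntForm L (-k) β ∧
        (∀ i e x, At e x → x ∈ L.U i → ∀ I : FI 6, I.card ≠ 3 → β i e (e x) I = 0) ∧
        (∃ i e x, At e x ∧ x ∈ L.U i ∧ β i e (e x) ≠ 0) ∧
        (∀ i e x, At e x → x ∈ L.U i → Prim (β i e) (e x)) ∧
        IntSec L (3 * m + 2 * k) G ∧ (∃ i x, x ∈ L.U i ∧ G i x ≠ 0) ∧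
        ∀ i e x, At e x → x ∈ L.U i → ∃ η : Fin 6 → Fin 3 → Cm 6 → ℂ,
          (∀ l j, AnalyticAt ℂ (η l j) (e x)) ∧
          ∀ᶠ z in 𝓝 (e x), ∀ l, G i (e.symm z) • (eps l *ᵥ β i e z) =
            ∑ j, η l j z • u j i e z := by
  obtain ⟨i, e, x, he, hi, h0⟩ := hw
  have : Nonempty X := ⟨x⟩
  exact exists_M_of_dense hu (vol_symp (n := 3) rfl h) (dense_gd hu hG ⟨i, e, x, he, hi, h0⟩)

end Vale.Agent.P301.H395
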