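import Vale.Agent.P301.H395.Th3

/-!
# P301, package W-I: the common factor `T` and the forms `g_j = a_1 ∧ a_j ∧ T`
-/

open scoped Manifold ContDiff ComplexOrder Topology Matrix
open Filter Metric Set
open Vale.Agent.P272.K Vale.Agent.P299 Vale.Agent.P299.IX Vale.Agent.P299.IX.Fock
open Vale.Agent.P301.H599
open Vale.Agent.P301.H724 (IsSec Nz HasSec wedge mnr lamPow isSec_wedge at_chartAt isOpen_dom Homog)
open Vale.Agent.P301.H897 (LamF)
open Vale.Agent.P301.H508 (Prim Par AnX PrimX ev_chart ev_of_chart zero_or an_comp ne_iff tsymm sat)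
open Vale.Agent.P301.H949 (IsoPow tw)

noncomputable section

namespace Vale.Agent.P301.H395

variable {X : Type} [TopologicalSpace X] [ChartedSpace (Cm 6) X] {ι : Type}
  {L : LineBundle 6 X ι} {m m' r : ℕ} {u : ι → Chart 6 X → Cm 6 → FI 6 → ℂ}
  {v : Fin r → ι → Chart 6 X → Cm 6 → FI 6 → ℂ}

/-- no combination of the `v j` is parallel to `u` at all points -/
def NoPar (L : LineBundle 6 X ι) (u : ι → Chart 6 X → Cm 6 → FI 6 → ℂ)
    (v : Fin r → ι → Chart 6 X → Cm 6 → FI 6 → ℂ) : Prop :=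
  ∀ c : Fin r → ℂ, (∀ i (e : Chart 6 X) x, At e x → x ∈ L.U i → ∀ I J,
    u i e (e x) I * (∑ j, c j • v j i e (e x)) J =
      u i e (e x) J * (∑ j, c j • v j i e (e x)) I) → c = 0

/-- a combination with zero tensor -/
theorem NoPar.eq_zero (h : NoPar L u v) (hc : CDec L u v) {c : Fin r → ℂ}
    (h0 : ∀ i (e : Chart 6 X) x, At e x → x ∈ L.U i → ∀ I K,
      ∑ j, c j * Th (u i e (e x)) (v j i e (e x)) I K = 0) : c = 0 := by
  refine h c fun i e x he hi I J => ?_
  obtain ⟨t, ⟨a, ha⟩, hv⟩ := hc i e x he hi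
  choose b hb using hv
  refine par_of_Th (t := t) (a := a) (b := ∑ j, c j • b j) ha ?_ (fun I K => ?_) I J
  · rw [epsV_sum, Matrix.sum_mulVec]
    refine Finset.sum_congr rfl fun j _ => ?_
    rw [epsV_smul, Matrix.smul_mulVec, ← hb j]
  · rw [Th_sum]
    exact h0 i e x he hi I K

theorem NoPar.dense [PreconnectedSpace X] (h : NoPar L u v) (hc : CDec L u v)
    (hu : IsSec L LamF m u) (hv : ∀ j, IsSec L LamF m' (v j)) (j₀ : Fin r) :
    Dense {x : X | Nz L (ThS u (v j₀)) x} := by
  refine (isSec_Th hu (hv j₀)).dense ?_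
  by_contra hcon
  push Not at hcon
  have h1 := h.eq_zero hc (c := Pi.single j₀ 1) (fun i e x he hi I K => ?_)
  · have h2 := congrFun h1 j₀
    rw [Pi.single_eq_same] at h2
    exact one_ne_zero h2
  · rw [Finset.sum_eq_single j₀]
    · have h3 : ThS u (v j₀) i e (e x) = 0 := by
        by_contra h4
        exact hcon x ((isSec_Th hu (hv j₀)).nz he hi h4)
      have h5 := congrFun h3 (I, K)
      have h6 : Th (u i e (e x)) (v j₀ i e (e x)) I K = 0 := h5
      rw [h6, mul_zero]
    · intro j _ hj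
      rw [Pi.single_eq_of_ne hj, zero_mul]
    · intro h3
      exact absurd (Finset.mem_univ _) h3

/-- a nonvanishing point gives a nonvanishing germ -/
theorem not_ev_zero {β : ι → Chart 6 X → Cm 6 → FI 6 → ℂ} [PreconnectedSpace X] {Λ} {k : ℕ}
    (hβ : IsSec L Λ k β) (hn : ∃ x, Nz L β x) {i : ι} {e : Chart 6 X} {x : X} (he : At e x)
    (hi : x ∈ L.U i) : ¬ ∀ᶠ z in 𝓝 (e x), β i e z = 0 := by
  intro h4
  obtain ⟨z, ⟨hz1, hz2, hz3⟩, hz4⟩ := ((freq_chart (hβ.dense hn) he
    ((L.isOpen i).mem_nhds hi)).and_eventually h4).exists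
  apply hz1 i e ⟨he.1, e.map_target hz3⟩ hz2
  rwa [e.right_inv hz3]

variable [IsManifold 𝓘(ℂ, Cm 6) ω X]

/-- **Package W-I.** The common factor `T` of the forms `u`, `v j` is a section of `Λ^3 ⊗ W`; if
`W` is `L^k` then `Th u (v j) = β ⊗ g j` with `β` in `Λ^3 ⊗ L^k` and `g j` in
`Λ^5 ⊗ L^(m+m'-k)`. -/
theorem exists_tens [PreconnectedSpace X] [Nonempty X] (hr : 0 < r) (hu : IsSec L LamF m u)
    (hv : ∀ j, IsSec L LamF m' (v j)) (hdu : Homog L 4 u) (hdv : ∀ j, Homog L 4 (v j))
    (hc : CDec L u v) (hgen : NoPar L u v) :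
    ∃ W : LineBundle 6 X X, (∃ β : X → Chart 6 X → Cm 6 → FI 6 → ℂ,
        IsSec W LamF 1 β ∧ Homog W 3 β ∧ ∃ x, Nz W β x) ∧
      ∀ k : ℤ, IsoPow W 1 L k → ∃ (β : ι → Chart 6 X → Cm 6 → FI 6 → ℂ)
        (g : Fin r → ι → Chart 6 X → Cm 6 → FI 6 → ℂ),
        IntForm L k β ∧ Homog L 3 β ∧ (∃ i e x, At e x ∧ x ∈ L.U i ∧ β i e (e x) ≠ 0) ∧
        (∀ i e x, At e x → x ∈ L.U i → Prim (β i e) (e x)) ∧
        (∀ j, IntForm L (m + m' - k) (g j)) ∧ (∀ j, Homog L 5 (g j)) ∧
        (∀ c : Fin r → ℂ, (∀ i e x, At e x → x ∈ L.U i → ∑ j, c j • g j i e (e x) = 0) → c = 0) ∧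
        ∀ i e x, At e x → x ∈ L.U i → ∀ j I K,
          Th (u i e (e x)) (v j i e (e x)) I K = β i e (e x) I * g j i e (e x) K := by
  classical
  set j₀ : Fin r := ⟨0, hr⟩ with hj₀
  have hd := hgen.dense hc hu hv j₀
  set D : ∀ x, LT L u v x := fun x => (exists_LT hu hv hc hd x).some with hDdef
  obtain ⟨W, hWU, hW⟩ := exists_WT hu hv D hd
  have hWU' : ∀ {x y}, y ∈ (D x).V → y ∈ W.U x := fun {x y} h => by rw [hWU]; exact h
  have hWV : ∀ {x y}, y ∈ W.U x → y ∈ (D x).V := fun {x y} h => by rw [hWU] at h; exact h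
  -- degrees
  have hT3 : ∀ {x : X} {e : Chart 6 X} {y : X}, y ∈ (D x).V → At e y → ∀ I : FI 6, I.card ≠ 3 →
      tT D x e y I = 0 := by
    intro x e y hy he I hI
    have hTa : AnalyticAt ℂ (fun z => tT D x e (e.symm z) I) (e y) := anX_tT D hy he I e he
    have hxe := (D x).at' y hy
    -- a nonzero component of the second factor
    obtain ⟨K, hK⟩ : ∃ K, ¬ ∀ᶠ z in 𝓝 (e y), gT (m + m') D x j₀ (ix L x) e (e.symm z) K = 0 := by
      by_contra hcon
      push Not at hcon
      have h1 : ∀ᶠ z in 𝓝 (e y), ∀ K, gT (m + m') D x j₀ (ix L x) e (e.symm z) K = 0 :=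
        eventually_all.2 hcon
      obtain ⟨z, ⟨hz1, hz2, hz3⟩, hz4⟩ := ((freq_chart hd he ((D x).isOpen.mem_nhds hy)).and_eventually
        h1).exists
      have hze : At e (e.symm z) := ⟨he.1, e.map_target hz3⟩
      apply hz1 (ix L x) e hze ((D x).dom _ hz2)
      funext p
      show Th _ _ p.1 p.2 = 0
      rw [ten_all hu hv D hz2 hze ((D x).dom _ hz2) j₀ p.1 p.2, hz4, mul_zero]
    have hga : AnalyticAt ℂ (fun z => gT (m + m') D x j₀ (ix L x) e (e.symm z) K) (e y) :=
      anX_gT D hy he ((D x).dom y hy) (m + m') j₀ K e he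
    have h2 := zero_or hga hTa (by
      refine ev_chart (p := fun z => gT (m + m') D x j₀ (ix L x) e z K * tT D x e z I = 0) he ?_
      filter_upwards [(D x).isOpen.mem_nhds hy, Vale.Agent.P301.H724.at_eventually he] with z h3 h4
      have h5 := ten_all hu hv D h3 h4 ((D x).dom z h3) j₀ I K
      rw [Th_deg_left (p := 3) (fun J hJ => hdu _ _ _ h4 ((D x).dom z h3) J hJ) hI] at h5
      rw [mul_comm]
      exact h5.symm)
    have h3 := (h2.resolve_left hK).self_of_nhds
    rwa [e.left_inv he.2] at h3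
  have hTne : ∀ {x : X} {e : Chart 6 X} {y : X}, y ∈ (D x).V → At e y → ∃ I,
      ¬ ∀ᶠ z in 𝓝 (e y), tT D x e (e.symm z) I = 0 := by
    intro x e y hy he
    have hp := tT_prim (c := fun _ => 1) D hy he (fun e he => analyticAt_const) one_ne_zero
    obtain ⟨I, hI⟩ := ne_iff.1 hp.ne
    refine ⟨I, fun h1 => hI ?_⟩
    filter_upwards [h1] with z hz
    show ((1 : ℂ) • tT D x e (e.symm z)) I = 0
    rw [one_smul]
    exact hz
  have hg5 : ∀ {x : X} {i : ι} {e : Chart 6 X} {y : X}, y ∈ (D x).V → At e y → y ∈ L.U i →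
      ∀ j, ∀ K : FI 6, K.card ≠ 5 → gT (m + m') D x j i e y K = 0 := by
    intro x i e y hy he hi j K hK
    obtain ⟨I, hI⟩ := hTne hy he
    have hTa : AnalyticAt ℂ (fun z => tT D x e (e.symm z) I) (e y) := anX_tT D hy he I e he
    have hga : AnalyticAt ℂ (fun z => gT (m + m') D x j i e (e.symm z) K) (e y) :=
      anX_gT D hy he hi (m + m') j K e he
    have h2 := zero_or hTa hga (by
      refine ev_chart (p := fun z => tT D x e z I * gT (m + m') D x j i e z K = 0) he ?_
      filter_upwards [(D x).isOpen.mem_nhds hy, Vale.Agent.P301.H724.at_eventually he,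
        (L.isOpen i).mem_nhds hi] with z h3 h4 h5
      have h6 := ten_all hu hv D h3 h4 h5 j I K
      rw [Th_deg_right (p := 4) (fun J hJ => hdv j _ _ _ h4 h5 J hJ) _ hK] at h6
      exact h6.symm)
    have h3 := (h2.resolve_left hI).self_of_nhds
    rwa [e.left_inv he.2] at h3
  refine ⟨W, ⟨fun x e z => tT D x e (e.symm z), ⟨?_, ?_, ?_⟩, ?_, ?_⟩, ?_⟩
  · intro x e y he hy I
    exact anX_tT D (hWV hy) he I e he
  · intro x x' e y he hy hy'
    show tT D x e (e.symm (e y)) = W.g x x' y ^ 1 • tT D x' e (e.symm (e y))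
    rw [e.left_inv he.2, pow_one, tT_tr D hW (hWV hy) (hWV hy') he]
  · intro x e e' y he he' hy
    show tT D x e (e.symm (e y)) = LamF e e' y *ᵥ tT D x e' (e'.symm (e' y))
    rw [e.left_inv he.2, e'.left_inv he'.2]
    unfold tT
    rw [Matrix.mulVec_mulVec, LamF_comp he he' ((D x).at' y (hWV hy))]
  · intro x e y he hy I hI
    show tT D x e (e.symm (e y)) I = 0
    rw [e.left_inv he.2]
    exact hT3 (hWV hy) he I hI
  · obtain ⟨x⟩ := ‹Nonempty X›
    have he := (D x).at' x (D x).mem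
    obtain ⟨I, hI⟩ := hTne (D x).mem he
    rw [Filter.not_eventually] at hI
    obtain ⟨z, hz1, hz2, hz3⟩ := (hI.and_eventually ((ev_chart (p := fun y => y ∈ (D x).V) he
      ((D x).isOpen.mem_nhds (D x).mem)).and ((ch x).open_target.mem_nhds
        ((ch x).map_source he.2)))).exists
    have hze : At (ch x) ((ch x).symm z) := ⟨he.1, (ch x).map_target hz3⟩
    refine ⟨(ch x).symm z, ?_⟩
    intro x' e' he' hx' h0
    have h1 : tT D x' e' ((ch x).symm z) = 0 := by
      have h2 : tT D x' e' (e'.symm (e' ((ch x).symm z))) = 0 := h0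
      rwa [e'.left_inv he'.2] at h2
    apply hz1
    have h2 : tT D x e' ((ch x).symm z) = 0 := by
      rw [tT_tr D hW hz2 (hWV hx') he', h1, smul_zero]
    have h3 : tT D x (ch x) ((ch x).symm z) = LamF (ch x) e' ((ch x).symm z) *ᵥ
        tT D x e' ((ch x).symm z) := by
      unfold tT
      rw [Matrix.mulVec_mulVec, LamF_comp hze he' ((D x).at' _ hz2)]
    rw [h3, h2, Matrix.mulVec_zero]
    rfl
  · rintro k ⟨h, hh1, hh2⟩
    have hhx : ∀ {x x' : X} {i : ι} {y : X}, y ∈ (D x).V → y ∈ (D x').V → y ∈ L.U i →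
        h x i y = W.g x x' y * h x' i y := by
      intro x x' i y h1 h2 h3
      have h4 := hh2 x x' i i y (hWU' h1) (hWU' h2) h3 h3
      rw [h4, g_one L h3, one_zpow, pow_one, inv_one, mul_one]
    have hhi : ∀ {x : X} {i j : ι} {y : X}, y ∈ (D x).V → y ∈ L.U i → y ∈ L.U j →
        h x i y = (L.g i j y ^ k)⁻¹ * h x j y := by
      intro x i j y h1 h2 h3
      have h4 := hh2 x x i j y (hWU' h1) (hWU' h1) h2 h3
      rw [h4, g_one W (hWU' h1), one_pow, one_mul]
    have hne : ∀ {x : X} {i : ι} {y : X}, y ∈ (D x).V → y ∈ L.U i → h x i y ≠ 0 :=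
      fun {x i y} h1 h2 => (hh1 x i y (hWU' h1) h2).2
    have han : ∀ {x : X} {i : ι} {y : X}, y ∈ (D x).V → y ∈ L.U i → AnX (d := 6) (h x i) y :=
      fun {x i y} h1 h2 => (hh1 x i y (hWU' h1) h2).1
    set β : ι → Chart 6 X → Cm 6 → FI 6 → ℂ := fun i e z =>
      (h (e.symm z) i (e.symm z))⁻¹ • tT D (e.symm z) e (e.symm z) with hβ
    set g : Fin r → ι → Chart 6 X → Cm 6 → FI 6 → ℂ := fun j i e z =>
      h (e.symm z) i (e.symm z) • gT (m + m') D (e.symm z) j i e (e.symm z) with hg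
    have hβx : ∀ {x : X} {i : ι} {e : Chart 6 X} {y : X}, y ∈ (D x).V → At e y → y ∈ L.U i →
        (h y i y)⁻¹ • tT D y e y = (h x i y)⁻¹ • tT D x e y := by
      intro x i e y h1 h2 h3
      have h5 : W.g y x y ≠ 0 := W.ne_zero _ _ _ (hWU' (D y).mem) (hWU' h1)
      rw [tT_tr D hW (D y).mem h1 h2, smul_smul, hhx (D y).mem h1 h3]
      congr 1
      have h6 := hne h1 h3
      field_simp
    have hgx : ∀ {x : X} {i : ι} {e : Chart 6 X} {y : X}, y ∈ (D x).V → At e y → y ∈ L.U i →
        ∀ j, h y i y • gT (m + m') D y j i e y = h x i y • gT (m + m') D x j i e y := by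
      intro x i e y h1 h2 h3 j
      have h4 := gT_tr hu hv D hWU hW (D y).mem h1 h2 h3 h3 j
      rw [g_one L h3, one_pow, one_smul] at h4
      rw [hhx (D y).mem h1 h3, ← h4, smul_smul]
      congr 1
      ring
    have hβy : ∀ {x : X} {i : ι} {e : Chart 6 X} {y : X}, y ∈ (D x).V → At e y → y ∈ L.U i →
        β i e (e y) = (h x i y)⁻¹ • tT D x e y := by
      intro x i e y h1 h2 h3
      rw [hβ]
      simp only
      rw [e.left_inv h2.2, hβx h1 h2 h3]
    have hgy : ∀ {x : X} {i : ι} {e : Chart 6 X} {y : X}, y ∈ (D x).V → At e y → y ∈ L.U i →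
        ∀ j, g j i e (e y) = h x i y • gT (m + m') D x j i e y := by
      intro x i e y h1 h2 h3 j
      rw [hg]
      simp only
      rw [e.left_inv h2.2, hgx h1 h2 h3]
    have hdomE : ∀ {x : X} {i : ι} {e : Chart 6 X}, At e x → x ∈ L.U i →
        ∀ᶠ z in 𝓝 (e x), (e.symm z ∈ (D x).V ∧ e.symm z ∈ L.U i ∧ At e (e.symm z)) := by
      intro x i e he hi
      exact ev_chart (p := fun y => y ∈ (D x).V ∧ y ∈ L.U i ∧ At e y) he (by
          filter_upwards [(D x).isOpen.mem_nhds (D x).mem, (L.isOpen i).mem_nhds hi,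
            Vale.Agent.P301.H724.at_eventually he] with y a1 a2 a3 using ⟨a1, a2, a3⟩)
    have hβe : ∀ {x : X} {i : ι} {e : Chart 6 X}, At e x → x ∈ L.U i →
        (fun z => (h x i (e.symm z))⁻¹ • tT D x e (e.symm z)) =ᶠ[𝓝 (e x)] β i e := by
      intro x i e he hi
      filter_upwards [hdomE he hi] with z hz
      exact (hβx hz.1 hz.2.2 hz.2.1).symm
    have hge : ∀ {x : X} {i : ι} {e : Chart 6 X}, At e x → x ∈ L.U i → ∀ j,
        (fun z => h x i (e.symm z) • gT (m + m') D x j i e (e.symm z)) =ᶠ[𝓝 (e x)] g j i e := by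
      intro x i e he hi j
      filter_upwards [hdomE he hi] with z hz
      exact (hgx hz.1 hz.2.2 hz.2.1 j).symm
    have hinv : ∀ {x : X} {i : ι} {y : X}, y ∈ (D x).V → y ∈ L.U i →
        AnX (d := 6) (fun y => (h x i y)⁻¹) y := by
      intro x i y h1 h2 e he
      exact (han h1 h2 e he).inv (by
        rw [e.left_inv he.2]
        exact hne h1 h2)
    have hprim : ∀ i e x, At e x → x ∈ L.U i → Prim (β i e) (e x) := by
      intro i e x he hi
      exact prim_congr (tT_prim D (D x).mem he (hinv (D x).mem hi)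
        (inv_ne_zero (hne (D x).mem hi))) (hβe he hi)
    have hten : ∀ i e x, At e x → x ∈ L.U i → ∀ j I K,
        Th (u i e (e x)) (v j i e (e x)) I K = β i e (e x) I * g j i e (e x) K := by
      intro i e x he hi j I K
      rw [hβy (D x).mem he hi, hgy (D x).mem he hi, ten_all hu hv D (D x).mem he hi]
      have h2 := hne (D x).mem hi
      simp only [Pi.smul_apply, smul_eq_mul]
      field_simp
    refine ⟨β, g, ⟨?_, ?_, ?_⟩, ?_, ?_, hprim, ?_, ?_, ?_, hten⟩
    · exact fun i e x he hi a => an_comp (hprim i e x he hi).an a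
    · intro i j e x he hi hj
      rw [hβy (D x).mem he hi, hβy (D x).mem he hj, smul_smul, hhi (D x).mem hi hj, mul_inv,
        inv_inv]
    · intro i e e' x he he' hi
      rw [hβy (D x).mem he hi, hβy (D x).mem he' hi, Matrix.mulVec_smul]
      unfold tT
      rw [Matrix.mulVec_mulVec, LamF_comp he he' ((D x).at' x (D x).mem)]
    · intro i e x he hi I hI
      rw [hβy (D x).mem he hi, Pi.smul_apply, hT3 (D x).mem he I hI, smul_zero]
    · obtain ⟨x⟩ := ‹Nonempty X›
      have he : At (ch x) x := at_chartAt x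
      have h1 := (hprim (ix L x) (ch x) x he (ix_mem x)).ne
      rw [Filter.not_eventually] at h1
      obtain ⟨z, hz1, hz2⟩ := (h1.and_eventually ((isOpen_dom L (ch x) (ix L x)).mem_nhds
        (show ch x x ∈ (ch x).target ∩ (ch x).symm ⁻¹' L.U (ix L x) from
          ⟨(ch x).map_source he.2, by
            show (ch x).symm (ch x x) ∈ L.U (ix L x)
            rw [(ch x).left_inv he.2]
            exact ix_mem x⟩))).exists
      refine ⟨ix L x, ch x, (ch x).symm z, ⟨he.1, (ch x).map_target hz2.1⟩, hz2.2, ?_⟩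
      rwa [(ch x).right_inv hz2.1]
    · intro j
      refine ⟨?_, ?_, ?_⟩
      · intro i e x he hi K
        have h1 : AnalyticAt ℂ (fun z => (h x i (e.symm z) • gT (m + m') D x j i e (e.symm z)) K)
            (e x) := (han (D x).mem hi e he).mul (anX_gT D (D x).mem he hi (m + m') j K e he)
        refine h1.congr ?_
        filter_upwards [hge he hi j] with z hz
        exact congrFun hz K
      · intro i i' e x he hi hi'
        rw [hgy (D x).mem he hi, hgy (D x).mem he hi']
        have h3 := gT_tr hu hv D hWU hW (D x).mem (D x).mem he hi hi' j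
        rw [g_one W (hWU' (D x).mem), one_smul] at h3
        have h4 := L.ne_zero i i' x hi hi'
        rw [h3, hhi (D x).mem hi hi', smul_smul, smul_smul]
        congr 1
        have h6 : L.g i i' x ^ ((m : ℤ) + m' - k) = L.g i i' x ^ (m + m') * (L.g i i' x ^ k)⁻¹ := by
          rw [zpow_sub₀ h4, div_eq_mul_inv, ← zpow_natCast]
          push_cast
          rfl
        rw [h6]
        ring
      · intro i e e' x he he' hi
        rw [hgy (D x).mem he hi, hgy (D x).mem he' hi, Matrix.mulVec_smul]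
        congr 1
        unfold gT
        rw [Matrix.mulVec_smul, Matrix.mulVec_mulVec, LamF_comp he he' ((D x).at' x (D x).mem)]
    · intro j i e x he hi K hK
      rw [hgy (D x).mem he hi, Pi.smul_apply, hg5 (D x).mem he hi j K hK, smul_zero]
    · intro c hc0
      refine hgen.eq_zero hc fun i e x he hi I K => ?_
      have h1 := congrFun (hc0 i e x he hi) K
      rw [Finset.sum_apply] at h1
      simp only [hten i e x he hi]
      have h2 : (∑ j, c j * (β i e (e x) I * g j i e (e x) K)) =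
          β i e (e x) I * ∑ j, (c j • g j i e (e x)) K := by
        rw [Finset.mul_sum]
        refine Finset.sum_congr rfl fun j _ => ?_
        rw [Pi.smul_apply, smul_eq_mul]
        ring
      rw [h2, h1]
      simp

end Vale.Agent.P301.H395
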