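import Vale.Agent.P301.H395.Tens5
import Vale.Agent.P301.H599.NSL
import Vale.Agent.P301.H949.CInd
import Vale.Agent.P301.H951.PTGr

/-!
# P301, package W-I: the exponent of the common factor is one
-/

open scoped Manifold ContDiff ComplexOrder Topology Matrix
open Filter Metric Set
open Vale.Agent.P272.K Vale.Agent.P299 Vale.Agent.P299.IX Vale.Agent.P299.IX.Fock
open Vale.Agent.P301.H599
open Vale.Agent.P301.H724 (IsSec Nz HasSec at_chartAt isOpen_dom Homog LinInd)
open Vale.Agent.P301.H897 (LamF)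
open Vale.Agent.P301.H508 (Prim an_comp ne_iff)
open Vale.Agent.P301.H949 (IsoPow tw powZ isSec_powZ isSec_of_intForm no_odd exists_isHolF)
open Vale.Agent.P301.H450 (IsExact IsNef q SData nef_par q_par pos_of_not_exact exists_rf
  q_nef_pos q_add_right q_hess_right q_congr q_smul_left isClosed_ddc isReal11_curvature')

set_option linter.all false

noncomputable section

namespace Vale.Agent.P301.H395

section powZ

variable {d : ℕ} {X : Type} [TopologicalSpace X] [ChartedSpace (Cm d) X]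
  [IsManifold 𝓘(ℂ, Cm d) ω X] {ι : Type} {L : LineBundle d X ι} {ρ : ι → X → ℝ}

omit [IsManifold 𝓘(ℂ, Cm d) ω X] in
theorem isMetric_powZ (hρ : IsMetric L ρ) (k : ℤ) :
    IsMetric (powZ L k) (fun i x => (k : ℝ) * ρ i x) where
  smooth i e x hx hi := contDiffAt_const.mul (hρ.smooth i e x hx hi)
  change i j x hi hj := by
    show (k : ℝ) * ρ i x = k * ρ j x + Real.log (‖L.g i j x ^ k‖ ^ 2)
    have h0 := L.ne_zero i j x hi hj
    have h1 : (‖L.g i j x‖ ^ k) ^ 2 = (‖L.g i j x‖ ^ 2) ^ k := by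
      rw [← zpow_natCast, ← zpow_natCast, ← zpow_mul, ← zpow_mul, mul_comm]
    rw [hρ.change i j x hi hj, norm_zpow, h1, Real.log_zpow]
    ring

theorem curvature_powZ (hρ : IsMetric L ρ) (k : ℤ) {e : Chart d X} {x : X} (hx : At e x) :
    curvature (powZ L k) (fun i x => (k : ℝ) * ρ i x) e (e x) =
      (k : ℂ) • curvature L ρ e (e x) := by
  obtain ⟨i, hi⟩ := L.cover x
  rw [curvature_eq (isMetric_powZ hρ k) hx (i := i) hi, curvature_eq hρ hx hi]
  have e1 : (fun y => (k : ℝ) * ρ i (e.symm y)) =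
      fun y => (k : ℝ) * ρ i (e.symm y) - (0 : ℝ) * ρ i (e.symm y) := by
    funext y; ring
  show Vale.Agent.P272.K.cHess (fun y => (k : ℝ) * ρ i (e.symm y)) (e x) = _
  rw [e1, Vale.Agent.P301.H949.ddc_of_contDiff (hρ.smooth i e x hx hi) (hρ.smooth i e x hx hi)]
  push_cast
  rw [zero_smul, sub_zero]
  rfl

end powZ

/-- **The local relation.** -/
theorem local_rel {X : Type} [TopologicalSpace X] [ChartedSpace (Cm 6) X] {ι : Type}
    {L : LineBundle 6 X ι} {m r : ℕ} {u : ι → Chart 6 X → Cm 6 → FI 6 → ℂ}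
    {v : Fin r → ι → Chart 6 X → Cm 6 → FI 6 → ℂ} (hu : IsSec L LamF m u)
    {β : ι → Chart 6 X → Cm 6 → FI 6 → ℂ} {g : Fin r → ι → Chart 6 X → Cm 6 → FI 6 → ℂ}
    (hprim : ∀ i e x, At e x → x ∈ L.U i → Prim (β i e) (e x))
    (hten : ∀ i e x, At e x → x ∈ L.U i → ∀ j I K,
      Th (u i e (e x)) (v j i e (e x)) I K = β i e (e x) I * g j i e (e x) K)
    (i : ι) (e : Chart 6 X) (x : X) (he : At e x) (hi : x ∈ L.U i) :
    ∃ (s : Cm 6 → ℂ) (C : FI 6 → FI 6 → Cm 6 → ℂ), AnalyticAt ℂ s (e x) ∧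
      (¬ ∀ᶠ z in 𝓝 (e x), s z = 0) ∧ (∀ I K, AnalyticAt ℂ (C I K) (e x)) ∧
      ∀ᶠ z in 𝓝 (e x), ∀ j k I, s z * (eps k *ᵥ g j i e z) I =
        ∑ K, C I K z * (eps k *ᵥ v j i e z) K := by
  classical
  obtain ⟨I₀, hI₀⟩ := ne_iff.1 (hprim i e x he hi).ne
  refine ⟨fun z => β i e z I₀, fun I K z => -∑ q, (iot q *ᵥ u i e z) I₀ * eps q I K,
    an_comp (hprim i e x he hi).an I₀, hI₀, fun I K => ?_, ?_⟩
  · exact (Finset.analyticAt_fun_sum _ fun q _ =>
      (an_mulVec _ (hu.holo i e x he hi) _).mul analyticAt_const).neg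
  · filter_upwards [(isOpen_dom L e i).mem_nhds
      (show e x ∈ e.target ∩ e.symm ⁻¹' L.U i from ⟨e.map_source he.2, by
        show e.symm (e x) ∈ L.U i
        rwa [e.left_inv he.2]⟩)] with z hz j k I
    have hz' : At e (e.symm z) := ⟨he.1, e.map_target hz.1⟩
    have h1 := hten i e (e.symm z) hz' hz.2 j I₀
    rw [e.right_inv hz.1] at h1
    have h2 : (fun K => Th (u i e z) (v j i e z) I₀ K) = β i e z I₀ • g j i e z := by
      funext K
      rw [h1 K]
      rfl
    have h3 := eps_Th (u i e z) (v j i e z) I₀ k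
    rw [h2, Matrix.mulVec_smul] at h3
    have h4 := congrFun h3 I
    simp only [Pi.smul_apply, smul_eq_mul, Pi.neg_apply, Finset.sum_apply] at h4
    rw [h4]
    simp only [neg_mul, Finset.sum_neg_distrib, Finset.sum_mul]
    rw [neg_inj, Finset.sum_comm]
    refine Finset.sum_congr rfl fun q _ => ?_
    have h5 : (eps q *ᵥ eps k *ᵥ v j i e z) I = ∑ K, eps q I K * (eps k *ᵥ v j i e z) K := rfl
    rw [h5, Finset.mul_sum]
    exact Finset.sum_congr rfl fun K _ => by ring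

variable {X : Type} [TopologicalSpace X] [ChartedSpace (Cm 6) X] [IsManifold 𝓘(ℂ, Cm 6) ω X]
  [T2Space X] [CompactSpace X] [SimplyConnectedSpace X] {ι κ : Type} {L : LineBundle 6 X ι}
  {V : LineBundle 6 X κ} {w s : Fm 6 X} {ρ : ι → X → ℝ} {ρV : κ → X → ℝ} {c : ℝ} {r : ℕ}

/-- the exponent of a form -/
theorem exponent_nonneg (hs : IsSymplectic 6 X w s) (hρ : IsMetric L ρ) (F : Auto 6 X)
    (hc : 0 < c) (hθ : SameClass (pull F (curvature L ρ)) (curvature L ρ))
    (hdd : SameClass (fun e z => pull F (pull F w) e z - (2 : ℂ) • pull F w e z + w e z)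
      (fun e z => (c : ℂ) • curvature L ρ e z))
    (hex : ¬ IsExact (curvature L ρ)) {k : ℤ} {p : ℕ} {β : ι → Chart 6 X → Cm 6 → FI 6 → ℂ}
    (hβ : IntForm L k β) (hh : Homog L p β) (hne : ∃ i e x, At e x ∧ x ∈ L.U i ∧ β i e (e x) ≠ 0) :
    0 ≤ k := by
  haveI : Nonempty X := inferInstance
  have hn := nef_par hs hρ F hc hθ hdd
  obtain ⟨u0, κ0, hu0, hk0⟩ := exists_rf hs hs.kahler
  have S := SData.of hs hk0
  have cL := (isReal11_curvature' hρ).toIsClosedForm
  have cw := INT.IsKahler.isClosedForm hs.kahler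
  have hwp : ∀ e x, At e x → (w e (e x)).PosSemidef := fun e x hx =>
    (hs.kahler.posDef e x hx).posSemidef
  have hLw : 0 < q s (curvature L ρ) w := by
    have h1 := q_nef_pos (by norm_num) hs hk0 hs.kahler (isReal11_curvature' hρ) hn hex
    have h2 : q s (curvature L ρ) (addH w u0) = q s (curvature L ρ) w := by
      show q s (curvature L ρ) (fun e z => w e z + ddc u0 e z) = _
      rw [q_add_right S cL cw (isClosed_ddc hu0), q_hess_right S cL hu0, add_zero]
    rwa [h2] at h1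
  obtain ⟨i, e, x, hx, hi, h0⟩ := hne
  have hβ' := isSec_powZ hβ
  have h1 := q_sec_nonneg hs (isMetric_powZ hρ k) hβ' (p := p) (fun i e x hx hi => hh i e x hx hi)
    ⟨x, hβ'.nz hx hi h0⟩ (θ := w) ⟨cw, fun e x hx => (hwp e x hx).isHermitian⟩ (by
      intro ε hε
      refine ⟨fun _ => 0, Smooth.const 0, fun e x hx => ?_⟩
      rw [ddc_const 0 e x hx, add_zero]
      exact (hwp e x hx).add ((hwp e x hx).smul (by exact_mod_cast hε.le)))
  have h2 : q s (curvature (powZ L k) fun i x => (k : ℝ) * ρ i x) w =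
      q s (fun e z => ((k : ℝ) : ℂ) • curvature L ρ e z) w := by
    refine q_congr (fun e x hx => ?_) fun _ _ _ => rfl
    rw [curvature_powZ hρ k hx]
    push_cast
    rfl
  rw [h2, q_smul_left] at h1
  have h3 : (0 : ℝ) ≤ k := nonneg_of_mul_nonneg_left h1 hLw
  exact_mod_cast h3

/-- **Package W-I, final form.** The forms `g j` are holomorphic five-forms with values in `L`. -/
theorem tens_one (hs : IsSymplectic 6 X w s) (hρ : IsMetric L ρ) (F : Auto 6 X)
    (hc : 0 < c) (hθ : SameClass (pull F (curvature L ρ)) (curvature L ρ))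
    (hdd : SameClass (fun e z => pull F (pull F w) e z - (2 : ℂ) • pull F w e z + w e z)
      (fun e z => (c : ℂ) • curvature L ρ e z))
    (hex : ¬ IsExact (curvature L ρ)) (hρV : IsMetric V ρV) {a : ℤ} (ha : a ≠ 0)
    (hF : SameClass (pull F (curvature V ρV))
      (fun e z => curvature V ρV e z + (a : ℂ) • curvature L ρ e z))
    (hNS : H99.NS L ρ V ρV) (hr : 0 < r) {u : ι → Chart 6 X → Cm 6 → FI 6 → ℂ}
    {v : Fin r → ι → Chart 6 X → Cm 6 → FI 6 → ℂ} (hu : IsSec L LamF 1 u)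
    (hv : ∀ j, IsSec L LamF 1 (v j)) (hdu : Homog L 4 u) (hdv : ∀ j, Homog L 4 (v j))
    (hcd : CDec L u v) (hgen : NoPar L u v) :
    ∃ g : Fin r → ι → Chart 6 X → Cm 6 → FI 6 → ℂ, (∀ j, IsSec L LamF 1 (g j)) ∧
      (∀ j, Homog L 5 (g j)) ∧ LinInd L g ∧
      ∀ i e x, At e x → x ∈ L.U i → ∃ (t : Cm 6 → ℂ) (C : FI 6 → FI 6 → Cm 6 → ℂ),
        AnalyticAt ℂ t (e x) ∧ (¬ ∀ᶠ z in 𝓝 (e x), t z = 0) ∧
        (∀ I K, AnalyticAt ℂ (C I K) (e x)) ∧
        ∀ᶠ z in 𝓝 (e x), ∀ j k I, t z * (eps k *ᵥ g j i e z) I =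
          ∑ K, C I K z * (eps k *ᵥ v j i e z) K := by
  haveI : Nonempty X := inferInstance
  obtain ⟨W, ⟨β₀, h1, h2, h3⟩, h4⟩ := exists_tens hr hu hv hdu hdv hcd hgen
  obtain ⟨k, hk⟩ := nsl hs hρ F hc hθ hdd hex hρV ha hF hNS h1 h2 h3
  obtain ⟨β, g, g1, g2, g3, g4, g5, g6, g7, g8⟩ := h4 k hk
  have hn := nef_par hs hρ F hc hθ hdd
  have hq := q_par hs hρ F hc hθ hdd
  -- a nonzero `g j`
  obtain ⟨j, hj⟩ : ∃ j, ∃ i e x, At e x ∧ x ∈ L.U i ∧ g j i e (e x) ≠ 0 := by
    by_contra hcon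
    push Not at hcon
    have h5 := g7 (fun _ => 1) fun i e x hx hi => Finset.sum_eq_zero fun j _ => by
      rw [hcon j i e x hx hi, smul_zero]
    exact one_ne_zero (congrFun h5 ⟨0, hr⟩)
  have hodd : ∀ {p : ℕ} {γ : ι → Chart 6 X → Cm 6 → FI 6 → ℂ}, Odd p → IntForm L 0 γ →
      Homog L p γ → ¬ ∃ i e x, At e x ∧ x ∈ L.U i ∧ γ i e (e x) ≠ 0 := by
    rintro p γ hp hγ hd ⟨i, e, x, hx, hi, hne⟩
    obtain ⟨G, hG, hGe⟩ := exists_isHolF hγ fun i e x hx hi I hI => hd i e x hx hi I hI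
    apply hne
    rw [← hGe i e x hx hi]
    exact no_odd (by norm_num) hs hρ hn hq hex hp hG hx
  have hk0 : k ≠ 0 := by
    rintro rfl
    exact hodd (p := 3) (by decide) (by simpa using g1) g2 g3
  have hk2 : (0 : ℤ) ≤ ((1 : ℕ) : ℤ) + ((1 : ℕ) : ℤ) - k :=
    exponent_nonneg hs hρ F hc hθ hdd hex (g5 j) (g6 j) hj
  have hk2' : k ≠ 2 := by
    rintro rfl
    exact hodd (p := 5) (by decide) (by simpa using g5 j) (g6 j) hj
  have hk1 : k = 1 := by
    push_cast at hk2
    omega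
  subst hk1
  refine ⟨g, fun j => isSec_of_intForm (m := 1) (by simpa using g5 j), g6, g7, ?_⟩
  exact fun i e x hx hi => local_rel hu g4 g8 i e x hx hi

/-- independent forms with a common annihilator of dimension three -/
theorem noPar_of_linInd (hs : IsSymplectic 6 X w s) (hρ : IsMetric L ρ)
    (hex : ¬ IsExact (curvature L ρ)) (hN : Vale.Agent.P301.H949.NSLProp L)
    {u : Fin (r + 1) → ι → Chart 6 X → Cm 6 → FI 6 → ℂ} (hu : ∀ b, IsSec L LamF 1 (u b))
    (hh : ∀ b, Homog L 4 (u b)) (hli : LinInd L u)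
    (hann : ∀ i e x, At e x → x ∈ L.U i →
      3 ≤ Module.finrank ℂ (Vale.Agent.P301.H951.ann fun b => u b i e (e x))) :
    NoPar L (u 0) (fun j => u j.succ) := by
  intro c hpar
  by_contra hc0
  set v : ι → Chart 6 X → Cm 6 → FI 6 → ℂ := comb c (fun j => u j.succ) with hv
  refine Vale.Agent.P301.H949.dep_of_par (u := ![u 0, v]) hs hρ hex hN (p := 4) (by norm_num)
    (by norm_num) ?_ ?_ ?_ ?_ ?_
  · intro b
    fin_cases b
    · exact hu 0
    · exact isSec_comb c fun j => hu j.succ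
  · intro b
    fin_cases b
    · exact hh 0
    · intro i e x hx hi I hI
      show comb c (fun j => u j.succ) i e (e x) I = 0
      unfold comb
      rw [Finset.sum_apply]
      refine Finset.sum_eq_zero fun j _ => ?_
      show c j • u j.succ i e (e x) I = 0
      rw [hh j.succ i e x hx hi I hI, smul_zero]
  · intro i e x hx hi
    obtain ⟨t, h1, h2, -⟩ := Vale.Agent.P301.H951.exists_dec3 (by norm_num) (hann i e x hx hi)
    refine ⟨t 0, fun h0 => h2 ?_, fun b => ?_⟩
    · rw [h0]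
      have : epsV (0 : Fin 6 → ℂ) = 0 := by simp [epsV]
      rw [this, Matrix.zero_mulVec]
    · fin_cases b
      · exact h1 0 0
      · show epsV (t 0) *ᵥ comb c (fun j => u j.succ) i e (e x) = 0
        unfold comb
        rw [Matrix.mulVec_sum]
        refine Finset.sum_eq_zero fun j _ => ?_
        have h3 : epsV (t 0) *ᵥ u j.succ i e (e x) = 0 := h1 0 j.succ
        rw [Matrix.mulVec_smul, h3, smul_zero]
  · intro i e x hx hi I J
    exact hpar i e x hx hi I J
  · intro t ht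
    have h1 := hli (Fin.cons (t 0) fun j => t 1 * c j) fun i e x hx hi => by
      rw [Fin.sum_univ_succ, Fin.cons_zero]
      have h2 := ht i e x hx hi
      rw [Fin.sum_univ_two] at h2
      have h3 : t 0 • u 0 i e (e x) + t 1 • comb c (fun j => u j.succ) i e (e x) = 0 := h2
      rw [← h3]
      congr 1
      unfold comb
      rw [Finset.smul_sum]
      refine Finset.sum_congr rfl fun j _ => ?_
      rw [Fin.cons_succ, smul_smul]
    have h2 : t 0 = 0 := congrFun h1 0
    have h3 : ∀ j, t 1 * c j = 0 := fun j => congrFun h1 j.succ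
    have h4 : t 1 = 0 := by
      by_contra h5
      exact hc0 (funext fun j => (mul_eq_zero.1 (h3 j)).resolve_left h5)
    funext b
    fin_cases b
    · exact h2
    · exact h4

/-- **W-I for the limit forms**: `r + 1` independent four-forms with values in `L`, with a common
annihilator of dimension three, give `r` independent five-forms with values in `L`. -/
theorem five_forms (hs : IsSymplectic 6 X w s) (hρ : IsMetric L ρ) (F : Auto 6 X)
    (hc : 0 < c) (hθ : SameClass (pull F (curvature L ρ)) (curvature L ρ))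
    (hdd : SameClass (fun e z => pull F (pull F w) e z - (2 : ℂ) • pull F w e z + w e z)
      (fun e z => (c : ℂ) • curvature L ρ e z))
    (hex : ¬ IsExact (curvature L ρ)) (hρV : IsMetric V ρV) {a : ℤ} (ha : a ≠ 0)
    (hF : SameClass (pull F (curvature V ρV))
      (fun e z => curvature V ρV e z + (a : ℂ) • curvature L ρ e z))
    (hNS : H99.NS L ρ V ρV) {u : Fin (r + 1) → ι → Chart 6 X → Cm 6 → FI 6 → ℂ}
    (hu : ∀ b, IsSec L LamF 1 (u b)) (hh : ∀ b, Homog L 4 (u b)) (hli : LinInd L u)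
    (hann : ∀ i e x, At e x → x ∈ L.U i →
      3 ≤ Module.finrank ℂ (Vale.Agent.P301.H951.ann fun b => u b i e (e x))) :
    ∃ g : Fin r → ι → Chart 6 X → Cm 6 → FI 6 → ℂ, (∀ j, IsSec L LamF 1 (g j)) ∧
      (∀ j, Homog L 5 (g j)) ∧ LinInd L g ∧
      ∀ i e x, At e x → x ∈ L.U i → ∃ (t : Cm 6 → ℂ) (C : FI 6 → FI 6 → Cm 6 → ℂ),
        AnalyticAt ℂ t (e x) ∧ (¬ ∀ᶠ z in 𝓝 (e x), t z = 0) ∧
        (∀ I K, AnalyticAt ℂ (C I K) (e x)) ∧
        ∀ᶠ z in 𝓝 (e x), ∀ j k I, t z * (eps k *ᵥ g j i e z) I =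
          ∑ K, C I K z * (eps k *ᵥ u j.succ i e z) K := by
  rcases Nat.eq_zero_or_pos r with rfl | hr
  · refine ⟨fun j => j.elim0, fun j => j.elim0, fun j => j.elim0, fun t _ => Subsingleton.elim _ _,
      fun i e x hx hi => ⟨fun _ => 1, fun _ _ _ => 0, analyticAt_const, fun h => ?_,
        fun _ _ => analyticAt_const, Eventually.of_forall fun z j => j.elim0⟩⟩
    exact one_ne_zero h.self_of_nhds
  · refine tens_one hs hρ F hc hθ hdd hex hρV ha hF hNS hr (hu 0) (fun j => hu j.succ) (hh 0)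
      (fun j => hh j.succ) ?_ ?_
    · intro i e x hx hi
      obtain ⟨t, -, -, h2⟩ := Vale.Agent.P301.H951.exists_dec3 (by norm_num) (hann i e x hx hi)
      exact ⟨t, h2 0 fun I hI => hh 0 i e x hx hi I hI,
        fun j => h2 j.succ fun I hI => hh j.succ i e x hx hi I hI⟩
    · exact noPar_of_linInd hs hρ hex (fun κ M p β h1 h2 h3 =>
        nsl hs hρ F hc hθ hdd hex hρV ha hF hNS h1 h2 h3) hu hh hli hann

end Vale.Agent.P301.H395
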