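import Vale.Agent.P301.H395.Out

/-!
# P301, W-I: the tensor of two multiples of a decomposable form

`Th u v = ∑ q, (ι_q u) ⊗ (e_q ∧ v)`; for `u = a ∧ T`, `v = b ∧ T` this is `T ⊗ (a ∧ b ∧ T)`.
-/

open scoped Matrix
open Set Filter Metric Topology
open Vale.Agent.P299 Vale.Agent.P299.IX Vale.Agent.P299.IX.Fock

noncomputable section

namespace Vale.Agent.P301.H395

section alg

variable {n : ℕ}

/-- the tensor -/
def Th (u v : FI n → ℂ) (I K : FI n) : ℂ := ∑ q, (iot q *ᵥ u) I * (eps q *ᵥ v) K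

theorem Th_smul (a b : ℂ) (u v : FI n → ℂ) (I K : FI n) :
    Th (a • u) (b • v) I K = a * b * Th u v I K := by
  unfold Th
  rw [Finset.mul_sum]
  refine Finset.sum_congr rfl fun q _ => ?_
  rw [Matrix.mulVec_smul, Matrix.mulVec_smul, Pi.smul_apply, Pi.smul_apply, smul_eq_mul,
    smul_eq_mul]
  ring

theorem Th_sum {α : Type*} (s : Finset α) (c : α → ℂ) (u : FI n → ℂ) (v : α → FI n → ℂ)
    (I K : FI n) : Th u (∑ j ∈ s, c j • v j) I K = ∑ j ∈ s, c j * Th u (v j) I K := by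
  unfold Th
  simp only [Matrix.mulVec_sum, Matrix.mulVec_smul, Finset.sum_apply, Pi.smul_apply, smul_eq_mul,
    Finset.mul_sum]
  rw [Finset.sum_comm]
  refine Finset.sum_congr rfl fun j _ => Finset.sum_congr rfl fun q _ => ?_
  ring

/-- `∑ q, w q (e_q ∧ x)` -/
theorem sum_eps (w : Fin n → ℂ) (x : FI n → ℂ) (K : FI n) :
    ∑ q, w q * (eps q *ᵥ x) K = (epsV w *ᵥ x) K := by
  unfold epsV
  rw [Matrix.sum_mulVec, Finset.sum_apply]
  exact Finset.sum_congr rfl fun q _ => by rw [Matrix.smul_mulVec, Pi.smul_apply, smul_eq_mul]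

theorem iot_eq (q : Fin n) : (iot q : FM n) = iotV (Pi.single q 1) := by
  unfold iotV
  rw [Finset.sum_eq_single q]
  · rw [Pi.single_eq_same, one_smul]
  · intro p _ hp
    rw [Pi.single_eq_of_ne hp, zero_smul]
  · intro h
    exact absurd (Finset.mem_univ _) h

theorem iot_epsV_mulVec (q : Fin n) (w : Fin n → ℂ) (x : FI n → ℂ) :
    iot q *ᵥ (epsV w *ᵥ x) = w q • x - epsV w *ᵥ (iot q *ᵥ x) := by
  rw [iot_eq, iotV_epsV_mulVec, single_one_dotProduct]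

/-- contraction of a decomposable form: `∑ q, (ι_q T)_I (e_q ∧ v)_K = 0` if the factors of `T`
annihilate `v`. -/
theorem Th_zero {t : Fin 3 → Fin n → ℂ} {v : FI n → ℂ} (hv : ∀ j, epsV (t j) *ᵥ v = 0)
    (I K : FI n) : Th (dec3 t) v I K = 0 := by
  have h0 : ∀ (j : Fin 3), ∑ q, t j q * (eps q *ᵥ v) K = 0 := fun j => by
    rw [sum_eps, hv]
    rfl
  unfold Th dec3
  have h1 : ∀ q : Fin n, (iot q *ᵥ (epsV (t 0) *ᵥ (epsV (t 1) *ᵥ (epsV (t 2) *ᵥ ev ∅)))) I =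
      t 0 q * (epsV (t 1) *ᵥ (epsV (t 2) *ᵥ ev ∅)) I -
      t 1 q * (epsV (t 0) *ᵥ (epsV (t 2) *ᵥ ev ∅)) I +
      t 2 q * (epsV (t 0) *ᵥ (epsV (t 1) *ᵥ ev ∅)) I := by
    intro q
    have h2 : (iot q *ᵥ ev ∅ : FI n → ℂ) = 0 := by
      rw [iot_eq, iotV_ev_empty]
    rw [iot_epsV_mulVec, iot_epsV_mulVec, iot_epsV_mulVec, h2]
    simp only [Matrix.mulVec_zero, sub_zero, Matrix.mulVec_sub, Matrix.mulVec_smul, Pi.sub_apply,
      Pi.smul_apply, smul_eq_mul]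
    ring
  simp only [h1]
  have h3 : ∀ q, (t 0 q * (epsV (t 1) *ᵥ (epsV (t 2) *ᵥ ev ∅)) I -
      t 1 q * (epsV (t 0) *ᵥ (epsV (t 2) *ᵥ ev ∅)) I +
      t 2 q * (epsV (t 0) *ᵥ (epsV (t 1) *ᵥ ev ∅)) I) * (eps q *ᵥ v) K =
      (epsV (t 1) *ᵥ (epsV (t 2) *ᵥ ev ∅)) I * (t 0 q * (eps q *ᵥ v) K) -
      (epsV (t 0) *ᵥ (epsV (t 2) *ᵥ ev ∅)) I * (t 1 q * (eps q *ᵥ v) K) +
      (epsV (t 0) *ᵥ (epsV (t 1) *ᵥ ev ∅)) I * (t 2 q * (eps q *ᵥ v) K) := fun q => by ring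
  simp only [h3, Finset.sum_add_distrib, Finset.sum_sub_distrib, ← Finset.mul_sum, h0, mul_zero,
    sub_zero, add_zero]

/-- **The tensor of two multiples of `T`.** -/
theorem Th_dec {t : Fin 3 → Fin n → ℂ} {v : FI n → ℂ} (hv : ∀ j, epsV (t j) *ᵥ v = 0)
    (a : Fin n → ℂ) (I K : FI n) :
    Th (epsV a *ᵥ dec3 t) v I K = dec3 t I * (epsV a *ᵥ v) K := by
  have h1 : Th (epsV a *ᵥ dec3 t) v I K = dec3 t I * (epsV a *ᵥ v) K -
      ∑ q, (epsV a *ᵥ (iot q *ᵥ dec3 t)) I * (eps q *ᵥ v) K := by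
    unfold Th
    rw [← sum_eps, Finset.mul_sum, ← Finset.sum_sub_distrib]
    refine Finset.sum_congr rfl fun q _ => ?_
    rw [iot_epsV_mulVec, Pi.sub_apply, Pi.smul_apply, smul_eq_mul]
    ring
  rw [h1, sub_eq_self]
  have h2 : ∀ q, (epsV a *ᵥ (iot q *ᵥ dec3 t)) I * (eps q *ᵥ v) K =
      ∑ J, epsV a I J * ((iot q *ᵥ dec3 t) J * (eps q *ᵥ v) K) := by
    intro q
    rw [Matrix.mulVec, dotProduct, Finset.sum_mul]
    exact Finset.sum_congr rfl fun J _ => by ring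
  simp only [h2]
  rw [Finset.sum_comm]
  refine Finset.sum_eq_zero fun J _ => ?_
  rw [← Finset.mul_sum]
  have h3 := Th_zero hv J K
  unfold Th at h3
  rw [h3, mul_zero]

/-- equivariance -/
theorem Th_lam (K : Matrix (Fin n) (Fin n) ℂ) (u v : FI n → ℂ) (I J : FI n) :
    Th (lam K *ᵥ u) (lam K *ᵥ v) I J =
      ∑ I', ∑ J', lam K I I' * lam K J J' * Th u v I' J' := by
  have h1 : ∀ q, iot q *ᵥ (lam K *ᵥ u) = ∑ s, K q s • (lam K *ᵥ (iot s *ᵥ u)) := by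
    intro q
    rw [Matrix.mulVec_mulVec, iot_lam, ← Matrix.mulVec_mulVec, Matrix.sum_mulVec, Matrix.mulVec_sum]
    exact Finset.sum_congr rfl fun s _ => by rw [Matrix.smul_mulVec, Matrix.mulVec_smul]
  unfold Th
  simp only [h1, Finset.sum_apply, Pi.smul_apply, smul_eq_mul, Finset.sum_mul]
  rw [Finset.sum_comm]
  have h2 : ∀ s, (∑ q, K q s * (lam K *ᵥ (iot s *ᵥ u)) I * (eps q *ᵥ (lam K *ᵥ v)) J) =
      (lam K *ᵥ (iot s *ᵥ u)) I * (lam K *ᵥ (eps s *ᵥ v)) J := by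
    intro s
    rw [lam_eps_mulVec, ← sum_eps, Finset.mul_sum]
    exact Finset.sum_congr rfl fun q _ => by ring
  simp only [h2]
  have h3 : ∀ s, (lam K *ᵥ (iot s *ᵥ u)) I * (lam K *ᵥ (eps s *ᵥ v)) J =
      ∑ I', ∑ J', lam K I I' * lam K J J' * ((iot s *ᵥ u) I' * (eps s *ᵥ v) J') := by
    intro s
    simp only [Matrix.mulVec, dotProduct]
    rw [Finset.sum_mul_sum]
    refine Finset.sum_congr rfl fun I' _ => Finset.sum_congr rfl fun J' _ => ?_
    ring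
  simp only [h3]
  rw [Finset.sum_comm]
  refine Finset.sum_congr rfl fun I' _ => ?_
  rw [Finset.sum_comm]
  refine Finset.sum_congr rfl fun J' _ => ?_
  rw [← Finset.mul_sum]

/-- a covector which does not annihilate a decomposable form -/
theorem exists_dual {t : Fin 3 → Fin n → ℂ} {b : Fin n → ℂ} (h : epsV b *ᵥ dec3 t ≠ 0) :
    ∃ w : Fin n → ℂ, (∀ j, w ⬝ᵥ t j = 0) ∧ w ⬝ᵥ b ≠ 0 := by
  by_contra hcon
  push Not at hcon
  apply h
  let f : (Fin n → ℂ) → (Fin n → ℂ) →ₗ[ℂ] ℂ := fun a =>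
    { toFun := fun w => w ⬝ᵥ a
      map_add' := fun x y => add_dotProduct _ _ _
      map_smul' := fun c x => smul_dotProduct _ _ _ }
  have h1 : f b ∈ Submodule.span ℂ (Set.range fun j => f (t j)) := by
    refine mem_span_of_iInf_ker_le_ker fun w hw => ?_
    rw [Submodule.mem_iInf] at hw
    exact hcon w fun j => hw j
  obtain ⟨c, hc⟩ := (Submodule.mem_span_range_iff_exists_fun ℂ).1 h1
  have h2 : b = ∑ j, c j • t j := by
    funext p
    have h3 := LinearMap.congr_fun hc (Pi.single p 1)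
    simp only [LinearMap.coe_sum, Finset.sum_apply, LinearMap.smul_apply] at h3
    have h4 : ∀ a : Fin n → ℂ, f a (Pi.single p 1) = a p := fun a =>
      (single_one_dotProduct p a : Pi.single p 1 ⬝ᵥ a = a p)
    simp only [h4] at h3
    rw [Finset.sum_apply, ← h3]
    rfl
  rw [h2, epsV_sum, Matrix.sum_mulVec]
  refine Finset.sum_eq_zero fun j _ => ?_
  rw [epsV_smul, Matrix.smul_mulVec, epsV_dec3, smul_zero]

/-- two multiples of a decomposable form with zero tensor are parallel -/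
theorem par_of_Th {t : Fin 3 → Fin n → ℂ} {a b : Fin n → ℂ} {u v : FI n → ℂ}
    (hu : u = epsV a *ᵥ dec3 t) (hv : v = epsV b *ᵥ dec3 t) (h : ∀ I K, Th u v I K = 0) (I J : FI n) :
    u I * v J = u J * v I := by
  by_cases hv0 : v = 0
  · rw [hv0]
    simp
  have ht : dec3 t ≠ 0 := fun h0 => hv0 (by rw [hv, h0, Matrix.mulVec_zero])
  obtain ⟨M, hM⟩ := Function.ne_iff.1 ht
  have h1 : epsV a *ᵥ v = 0 := by
    funext K
    have h2 := h M K
    rw [hu, Th_dec (fun j => by rw [hv, epsV_ideal])] at h2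
    exact (mul_eq_zero.1 h2).resolve_left hM
  obtain ⟨w, hw, hwb⟩ := exists_dual (hv ▸ hv0)
  have h3 : iotV w *ᵥ (epsV a *ᵥ v) = 0 := by rw [h1, Matrix.mulVec_zero]
  rw [hv, iotV_epsV_mulVec, iotV_epsV_mulVec, iotV_dec3 hw, Matrix.mulVec_zero, sub_zero,
    Matrix.mulVec_smul, ← hu, ← hv, sub_eq_zero] at h3
  have h4 : ∀ I, w ⬝ᵥ a * v I = w ⬝ᵥ b * u I := fun I => by
    have := congrFun h3 I
    simpa only [Pi.smul_apply, smul_eq_mul] using this
  have h5 : w ⬝ᵥ b * (u I * v J - u J * v I) = 0 := by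
    linear_combination (v I) * h4 J - (v J) * h4 I
  exact sub_eq_zero.1 ((mul_eq_zero.1 h5).resolve_left hwb)

/-- the local relation -/
theorem eps_Th (u v : FI n → ℂ) (I : FI n) (l : Fin n) :
    eps l *ᵥ (fun K => Th u v I K) = -∑ q, (iot q *ᵥ u) I • (eps q *ᵥ (eps l *ᵥ v)) := by
  have h1 : (fun K => Th u v I K) = ∑ q, (iot q *ᵥ u) I • (eps q *ᵥ v) := by
    funext K
    simp only [Th, Finset.sum_apply, Pi.smul_apply, smul_eq_mul]
  rw [h1, Matrix.mulVec_sum, ← Finset.sum_neg_distrib]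
  refine Finset.sum_congr rfl fun q _ => ?_
  rw [Matrix.mulVec_smul, ← smul_neg]
  congr 1
  rw [← epsV_single q, eps_epsV_mulVec]

/-- degrees -/
theorem Th_deg_left {u v : FI n → ℂ} {p : ℕ} (hu : ∀ I : FI n, I.card ≠ p + 1 → u I = 0) {I : FI n}
    (hI : I.card ≠ p) (K : FI n) : Th u v I K = 0 := by
  unfold Th
  refine Finset.sum_eq_zero fun q _ => ?_
  rw [iot_mulVec]
  split_ifs with h
  · rw [zero_mul]
  · rw [hu, mul_zero, zero_mul]
    rw [Finset.card_insert_of_notMem h]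
    omega

theorem Th_deg_right {u v : FI n → ℂ} {p : ℕ} (hv : ∀ I : FI n, I.card ≠ p → v I = 0) (I : FI n)
    {K : FI n} (hK : K.card ≠ p + 1) : Th u v I K = 0 := by
  unfold Th
  refine Finset.sum_eq_zero fun q _ => ?_
  rw [eps_mulVec]
  split_ifs with h
  · rw [hv, mul_zero, mul_zero]
    rw [Finset.card_erase_of_mem h]
    have := Finset.card_pos.2 ⟨q, h⟩
    omega
  · rw [mul_zero]

end alg

section an

variable {E : Type*} [NormedAddCommGroup E] [NormedSpace ℂ E] {n : ℕ} {z₀ : E}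

theorem an_Th {u v : E → FI n → ℂ} (hu : ∀ I, AnalyticAt ℂ (fun z => u z I) z₀)
    (hv : ∀ I, AnalyticAt ℂ (fun z => v z I) z₀) (I K : FI n) :
    AnalyticAt ℂ (fun z => Th (u z) (v z) I K) z₀ := by
  unfold Th
  exact Finset.analyticAt_fun_sum _ fun q _ => (an_mulVec _ hu _).mul (an_mulVec _ hv _)

end an

end Vale.Agent.P301.H395
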