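import Vale.Agent.P301.H395.Th

/-!
# P301, W-I: the local primitive form, and the section `Th`
-/

open scoped Manifold ContDiff ComplexOrder Topology Matrix
open Filter Metric Set
open Vale.Agent.P272.K Vale.Agent.P299 Vale.Agent.P299.IX Vale.Agent.P299.IX.Fock
open Vale.Agent.P301.H599
open Vale.Agent.P301.H724 (IsSec Nz HasSec wedge mnr lamPow isSec_wedge at_chartAt isOpen_dom Homog)
open Vale.Agent.P301.H897 (LamF)
open Vale.Agent.P301.H508 (Prim Par AnX PrimX ev_chart ev_of_chart zero_or an_comp ne_iff tsymm sat)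
open Vale.Agent.P301.H949 (IsoPow tw)

noncomputable section

namespace Vale.Agent.P301.H395

/-- the primitive form of tensors with a common first factor -/
theorem exists_prim_th {r : ℕ} {Θ : Fin r → (Fin 6 → ℂ) → FI 6 → FI 6 → ℂ} {z₀ : Fin 6 → ℂ}
    (hΘ : ∀ j I K, AnalyticAt ℂ (fun z => Θ j z I K) z₀)
    (hrk : ∀ᶠ z in 𝓝 z₀, ∀ j l I K I' K', Θ j z I K * Θ l z I' K' = Θ j z I' K * Θ l z I K')
    {j₀ : Fin r} (hne : ¬ ∀ᶠ z in 𝓝 z₀, ∀ I K, Θ j₀ z I K = 0) :
    ∃ (T : (Fin 6 → ℂ) → FI 6 → ℂ) (g : Fin r → (Fin 6 → ℂ) → FI 6 → ℂ),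
      (∀ᶠ z in 𝓝 z₀, Prim T z) ∧ (∀ j K, AnalyticAt ℂ (fun z => g j z K) z₀) ∧
      ∀ᶠ z in 𝓝 z₀, ∀ j I K, Θ j z I K = T z I * g j z K := by
  classical
  obtain ⟨K₀, hK₀⟩ : ∃ K, ¬ ∀ᶠ z in 𝓝 z₀, (fun I => Θ j₀ z I K) = 0 := by
    by_contra hcon
    push Not at hcon
    apply hne
    have h1 : ∀ᶠ z in 𝓝 z₀, ∀ K, (fun I => Θ j₀ z I K) = 0 := eventually_all.2 hcon
    filter_upwards [h1] with z hz I K
    exact congrFun (hz K) I
  obtain ⟨s, T, hs, hsT, hprim⟩ := sat (w := fun z I => Θ j₀ z I K₀) (a := z₀)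
    (analyticAt_pi_iff.2 fun I => hΘ j₀ I K₀) hK₀
  have hT0 : Prim T z₀ := hprim.self_of_nhds
  have hTa : ∀ I, AnalyticAt ℂ (fun z => T z I) z₀ := fun I => an_comp hT0.an I
  have hs0 : ¬ ∀ᶠ z in 𝓝 z₀, s z = 0 := by
    intro h1
    apply hK₀
    filter_upwards [h1, hsT] with z h2 h3
    rw [h3, h2, zero_smul]
  have hcol : ∀ j K, ∃ τ : (Fin 6 → ℂ) → ℂ, AnalyticAt ℂ τ z₀ ∧ ∀ᶠ z in 𝓝 z₀,
      (fun I => Θ j z I K) = τ z • T z := by
    intro j K
    refine hT0.dvd (fun z I => Θ j z I K) (analyticAt_pi_iff.2 fun I => hΘ j I K) ?_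
    unfold Par
    simp only [eventually_all]
    intro I M
    have h1 := zero_or hs (((hΘ j I K).mul (hTa M)).sub ((hΘ j M K).mul (hTa I))) (by
      filter_upwards [hsT, hrk] with z h2 h3
      have h4 := congrFun h2 M
      have h5 := congrFun h2 I
      simp only [Pi.smul_apply, smul_eq_mul] at h4 h5
      show s z * (Θ j z I K * T z M - Θ j z M K * T z I) = 0
      have h6 := h3 j j₀ I K M K₀
      linear_combination (-Θ j z I K) * h4 + Θ j z M K * h5 + h6)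
    filter_upwards [h1.resolve_left hs0] with z hz
    exact sub_eq_zero.1 hz
  choose τ hτa hτ using hcol
  refine ⟨T, fun j z K => τ j K z, hprim, hτa, ?_⟩
  have h1 : ∀ᶠ z in 𝓝 z₀, ∀ j K, (fun I => Θ j z I K) = τ j K z • T z := by
    simp only [eventually_all]
    exact hτ
  filter_upwards [h1] with z hz j I K
  have h2 := congrFun (hz j K) I
  simp only [Pi.smul_apply, smul_eq_mul] at h2
  rw [h2, mul_comm]

section sec

variable {X : Type} [TopologicalSpace X] [ChartedSpace (Cm 6) X] {ι : Type}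
  {L : LineBundle 6 X ι} {m m' : ℕ} {u v : ι → Chart 6 X → Cm 6 → FI 6 → ℂ}

/-- the transition matrices of `Λ ⊗ Λ` -/
def LamT (e e' : Chart 6 X) (x : X) : Matrix (FI 6 × FI 6) (FI 6 × FI 6) ℂ :=
  Matrix.of fun p q => LamF e e' x p.1 q.1 * LamF e e' x p.2 q.2

/-- the section `Th u v` -/
def ThS (u v : ι → Chart 6 X → Cm 6 → FI 6 → ℂ) (i : ι) (e : Chart 6 X) (z : Cm 6)
    (p : FI 6 × FI 6) : ℂ := Th (u i e z) (v i e z) p.1 p.2

theorem isSec_Th (hu : IsSec L LamF m u) (hv : IsSec L LamF m' v) :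
    IsSec L LamT (m + m') (ThS u v) where
  holo i e x he hi p := an_Th (hu.holo i e x he hi) (hv.holo i e x he hi) p.1 p.2
  chL i j e x he hi hj := by
    funext p
    show Th (u i e (e x)) (v i e (e x)) p.1 p.2 = _ * Th (u j e (e x)) (v j e (e x)) p.1 p.2
    rw [hu.chL i j e x he hi hj, hv.chL i j e x he hi hj, Th_smul, pow_add]
  chV i e e' x he he' hi := by
    funext p
    show Th (u i e (e x)) (v i e (e x)) p.1 p.2 = _
    rw [hu.chV i e e' x he he' hi, hv.chV i e e' x he he' hi]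
    show Th (lam _ *ᵥ _) (lam _ *ᵥ _) p.1 p.2 = _
    rw [Th_lam, Matrix.mulVec, dotProduct, Fintype.sum_prod_type]
    rfl

/-- linear combinations of sections -/
def comb {r : ℕ} (c : Fin r → ℂ) (v : Fin r → ι → Chart 6 X → Cm 6 → FI 6 → ℂ) :
    ι → Chart 6 X → Cm 6 → FI 6 → ℂ := fun i e z => ∑ j, c j • v j i e z

theorem isSec_comb {r : ℕ} {v : Fin r → ι → Chart 6 X → Cm 6 → FI 6 → ℂ} (c : Fin r → ℂ)
    (hv : ∀ j, IsSec L LamF m (v j)) : IsSec L LamF m (comb c v) where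
  holo i e x he hi I := by
    have h1 : ∀ z, comb c v i e z I = ∑ j, c j * v j i e z I := fun z => by
      unfold comb
      rw [Finset.sum_apply]
      rfl
    simp only [h1]
    exact Finset.analyticAt_fun_sum _ fun j _ => analyticAt_const.mul ((hv j).holo i e x he hi I)
  chL i j e x he hi hj := by
    unfold comb
    rw [Finset.smul_sum]
    refine Finset.sum_congr rfl fun k _ => ?_
    rw [(hv k).chL i j e x he hi hj, smul_comm]
  chV i e e' x he he' hi := by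
    unfold comb
    rw [Matrix.mulVec_sum]
    refine Finset.sum_congr rfl fun k _ => ?_
    rw [(hv k).chV i e e' x he he' hi, Matrix.mulVec_smul]

theorem ThS_comb {r : ℕ} {v : Fin r → ι → Chart 6 X → Cm 6 → FI 6 → ℂ} (c : Fin r → ℂ)
    (u : ι → Chart 6 X → Cm 6 → FI 6 → ℂ) (i : ι) (e : Chart 6 X) (z : Cm 6) (p : FI 6 × FI 6) :
    ThS u (comb c v) i e z p = ∑ j, c j * ThS u (v j) i e z p := by
  unfold ThS comb
  rw [Th_sum]

end sec

end Vale.Agent.P301.H395
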