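import Vale.Agent.P301.H395.Th2

/-!
# P301, W-I: the line bundle of the common factor
-/

open scoped Manifold ContDiff ComplexOrder Topology Matrix
open Filter Metric Set
open Vale.Agent.P272.K Vale.Agent.P299 Vale.Agent.P299.IX Vale.Agent.P299.IX.Fock
open Vale.Agent.P301.H599
open Vale.Agent.P301.H724 (IsSec Nz HasSec wedge mnr lamPow isSec_wedge at_chartAt isOpen_dom Homog)
open Vale.Agent.P301.H897 (LamF)
open Vale.Agent.P301.H508 (Prim Par AnX PrimX ev_chart ev_of_chart zero_or an_comp ne_iff tsymm sat)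
open Vale.Agent.P301.H949 (IsoPow tw)

noncomputable section

namespace Vale.Agent.P301.H395

variable {X : Type} [TopologicalSpace X] [ChartedSpace (Cm 6) X] {ι : Type}
  {L : LineBundle 6 X ι} {m m' r : ℕ} {u : ι → Chart 6 X → Cm 6 → FI 6 → ℂ}
  {v : Fin r → ι → Chart 6 X → Cm 6 → FI 6 → ℂ}

/-- all forms are multiples of one decomposable form, at every point -/
def CDec (L : LineBundle 6 X ι) (u : ι → Chart 6 X → Cm 6 → FI 6 → ℂ)
    (v : Fin r → ι → Chart 6 X → Cm 6 → FI 6 → ℂ) : Prop :=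
  ∀ i (e : Chart 6 X) x, At e x → x ∈ L.U i → ∃ t : Fin 3 → Fin 6 → ℂ,
    (∃ a : Fin 6 → ℂ, u i e (e x) = epsV a *ᵥ dec3 t) ∧
      ∀ j, ∃ a : Fin 6 → ℂ, v j i e (e x) = epsV a *ᵥ dec3 t

/-- the rank one property at a point -/
theorem CDec.rk (h : CDec L u v) {i : ι} {e : Chart 6 X} {x : X} (he : At e x) (hi : x ∈ L.U i) :
    ∃ t : Fin 3 → Fin 6 → ℂ, ∃ w : Fin r → FI 6 → ℂ,
      ∀ j I K, Th (u i e (e x)) (v j i e (e x)) I K = dec3 t I * w j K := by
  obtain ⟨t, ⟨a, ha⟩, hv⟩ := h i e x he hi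
  choose b hb using hv
  refine ⟨t, fun j => epsV a *ᵥ v j i e (e x), fun j I K => ?_⟩
  rw [ha, Th_dec fun l => by rw [hb j, epsV_ideal]]

/-- local data on a neighbourhood of `x` -/
structure LT (L : LineBundle 6 X ι) (u : ι → Chart 6 X → Cm 6 → FI 6 → ℂ)
    (v : Fin r → ι → Chart 6 X → Cm 6 → FI 6 → ℂ) (x : X) where
  V : Set X
  T : Cm 6 → FI 6 → ℂ
  g : Fin r → Cm 6 → FI 6 → ℂ
  isOpen : IsOpen V
  mem : x ∈ V
  at' : ∀ y ∈ V, At (ch x) y
  dom : ∀ y ∈ V, y ∈ L.U (ix L x)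
  prim : ∀ y ∈ V, Prim T (ch x y)
  an : ∀ y ∈ V, ∀ j K, AnalyticAt ℂ (fun z => g j z K) (ch x y)
  ten : ∀ y ∈ V, ∀ j I K, Th (u (ix L x) (ch x) (ch x y)) (v j (ix L x) (ch x) (ch x y)) I K =
    T (ch x y) I * g j (ch x y) K

theorem exists_LT (hu : IsSec L LamF m u) (hv : ∀ j, IsSec L LamF m' (v j)) (hc : CDec L u v)
    {j₀ : Fin r} (hd : Dense {x : X | Nz L (ThS u (v j₀)) x}) (x : X) : Nonempty (LT L u v x) := by
  have hx : At (ch x) x := at_chartAt x
  have hdom := (isOpen_dom L (ch x) (ix L x)).mem_nhds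
    (show ch x x ∈ (ch x).target ∩ (ch x).symm ⁻¹' L.U (ix L x) from ⟨(ch x).map_source hx.2, by
      show (ch x).symm (ch x x) ∈ L.U (ix L x)
      rw [(ch x).left_inv hx.2]
      exact ix_mem x⟩)
  obtain ⟨T, g, h1, h2, h3⟩ := exists_prim_th (r := r)
    (Θ := fun j z I K => Th (u (ix L x) (ch x) z) (v j (ix L x) (ch x) z) I K) (z₀ := ch x x)
    (fun j I K => an_Th (hu.holo _ _ x hx (ix_mem x)) ((hv j).holo _ _ x hx (ix_mem x)) I K)
    (by
      filter_upwards [hdom] with z hz j l I K I' K'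
      have hz' : At (ch x) ((ch x).symm z) := ⟨hx.1, (ch x).map_target hz.1⟩
      obtain ⟨t, w, h4⟩ := hc.rk hz' hz.2
      rw [(ch x).right_inv hz.1] at h4
      simp only [h4]
      ring)
    (j₀ := j₀) (by
      intro h4
      obtain ⟨z, ⟨hz1, hz2, hz3⟩, hz4⟩ := ((freq_chart hd hx ((L.isOpen _).mem_nhds
        (ix_mem (L := L) x))).and_eventually h4).exists
      apply hz1 (ix L x) (ch x) ⟨hx.1, (ch x).map_target hz3⟩ hz2
      rw [(ch x).right_inv hz3]
      funext p
      exact hz4 p.1 p.2)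
  have h4 : ∀ᶠ y in 𝓝 x, At (ch x) y ∧ y ∈ L.U (ix L x) ∧ Prim T (ch x y) ∧
      (∀ j K, AnalyticAt ℂ (fun z => g j z K) (ch x y)) ∧
      ∀ j I K, Th (u (ix L x) (ch x) (ch x y)) (v j (ix L x) (ch x) (ch x y)) I K =
        T (ch x y) I * g j (ch x y) K := by
    have ht : Tendsto (ch x) (𝓝 x) (𝓝 (ch x x)) := ((ch x).continuousAt hx.2).tendsto
    have h2' : ∀ᶠ z in 𝓝 (ch x x), ∀ j K, AnalyticAt ℂ (fun z => g j z K) z := by
      simp only [eventually_all]
      exact fun j K => (h2 j K).eventually_analyticAt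
    filter_upwards [Vale.Agent.P301.H724.at_eventually hx, (L.isOpen _).mem_nhds (ix_mem (L := L) x),
      ht.eventually h1, ht.eventually h2', ht.eventually h3]
      with y h5 h6 h7 h8 h9
    exact ⟨h5, h6, h7, h8, h9⟩
  obtain ⟨V, hV, hVo, hxV⟩ := mem_nhds_iff.1 h4
  exact ⟨⟨V, T, g, hVo, hxV, fun y hy => (hV hy).1, fun y hy => (hV hy).2.1,
    fun y hy => (hV hy).2.2.1, fun y hy => (hV hy).2.2.2.1, fun y hy => (hV hy).2.2.2.2⟩⟩

variable [IsManifold 𝓘(ℂ, Cm 6) ω X]

theorem LT.primX {x : X} (D : LT L u v x) {y : X} (hy : y ∈ D.V) :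
    PrimX (d := 6) (fun y => D.T (ch x y)) y := by
  refine PrimX.of_chart (D.at' y hy) (prim_congr (D.prim y hy) ?_)
  filter_upwards [(ch x).open_target.mem_nhds ((ch x).map_source (D.at' y hy).2)] with z hz
  show D.T z = D.T (ch x ((ch x).symm z))
  rw [(ch x).right_inv hz]

theorem LT.anX {x : X} (D : LT L u v x) {y : X} (hy : y ∈ D.V) (j : Fin r) (K : FI 6) :
    AnX (d := 6) (fun y => D.g j (ch x y) K) y := by
  refine AnX.of_chart (D.at' y hy) ((D.an y hy j K).congr ?_)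
  filter_upwards [(ch x).open_target.mem_nhds ((ch x).map_source (D.at' y hy).2)] with z hz
  rw [(ch x).right_inv hz]

/-- the first factor in an arbitrary chart -/
def tT (D : ∀ x, LT L u v x) (x : X) (e : Chart 6 X) (y : X) : FI 6 → ℂ :=
  LamF e (ch x) y *ᵥ (D x).T (ch x y)

/-- the second factor in an arbitrary chart and trivialisation -/
def gT (m : ℕ) (D : ∀ x, LT L u v x) (x : X) (j : Fin r) (i : ι) (e : Chart 6 X) (y : X) :
    FI 6 → ℂ :=
  L.g i (ix L x) y ^ m • (LamF e (ch x) y *ᵥ (D x).g j (ch x y))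

section loc

variable (hu : IsSec L LamF m u) (hv : ∀ j, IsSec L LamF m' (v j)) (D : ∀ x, LT L u v x)

include hu hv in
theorem ten_all {x : X} {i : ι} {e : Chart 6 X} {y : X} (hy : y ∈ (D x).V) (he : At e y)
    (hi : y ∈ L.U i) (j : Fin r) (I K : FI 6) : Th (u i e (e y)) (v j i e (e y)) I K =
      tT D x e y I * gT (m + m') D x j i e y K := by
  have hS := isSec_Th hu (hv j)
  have h1 := congrFun (hS.chV i e (ch x) y he ((D x).at' y hy) hi) (I, K)
  rw [hS.chL i (ix L x) (ch x) y ((D x).at' y hy) hi ((D x).dom y hy), Matrix.mulVec_smul,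
    Pi.smul_apply, smul_eq_mul, Matrix.mulVec, dotProduct, Fintype.sum_prod_type] at h1
  have h2 : tT D x e y I * gT (m + m') D x j i e y K = L.g i (ix L x) y ^ (m + m') *
      ∑ I', ∑ K', (LamF e (ch x) y I I' * (D x).T (ch x y) I') *
        (LamF e (ch x) y K K' * (D x).g j (ch x y) K') := by
    unfold tT gT
    simp only [Matrix.mulVec, dotProduct, Pi.smul_apply, smul_eq_mul]
    rw [← Finset.sum_mul_sum]
    ring
  rw [h2]
  refine h1.trans ?_
  congr 1
  refine Finset.sum_congr rfl fun I' _ => Finset.sum_congr rfl fun K' _ => ?_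
  have h3 := (D x).ten y hy j I' K'
  show LamF e (ch x) y I I' * LamF e (ch x) y K K' *
    Th (u (ix L x) (ch x) (ch x y)) (v j (ix L x) (ch x) (ch x y)) I' K' = _
  rw [h3]
  ring

theorem tT_self {x : X} {y : X} (hy : y ∈ (D x).V) : tT D x (ch x) y = (D x).T (ch x y) := by
  unfold tT
  rw [LamF_self ((D x).at' y hy), Matrix.one_mulVec]

theorem gT_self {x : X} {y : X} (hy : y ∈ (D x).V) (k : ℕ) (j : Fin r) :
    gT k D x j (ix L x) (ch x) y = (D x).g j (ch x y) := by
  unfold gT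
  rw [LamF_self ((D x).at' y hy), Matrix.one_mulVec, g_one L ((D x).dom y hy), one_pow, one_smul]

theorem anX_tT {x : X} {e : Chart 6 X} {y : X} (hy : y ∈ (D x).V) (he : At e y) (K : FI 6) :
    AnX (d := 6) (fun z => tT D x e z K) y := by
  have h1 : AnalyticAt ℂ (fun z => tT D x e (e.symm z) K) (e y) :=
    an_mulVecX (A := fun z => LamF e (ch x) z) (w := fun z => (D x).T (ch x z))
      (fun k l => anX_LamF he ((D x).at' y hy) k l e he)
      (fun l => an_comp (((D x).primX hy) e he).an l) K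
  exact AnX.of_chart he h1

theorem anX_gT {x : X} {i : ι} {e : Chart 6 X} {y : X} (hy : y ∈ (D x).V) (he : At e y)
    (hi : y ∈ L.U i) (k : ℕ) (j : Fin r) (K : FI 6) :
    AnX (d := 6) (fun z => gT k D x j i e z K) y := by
  have h1 : AnalyticAt ℂ (fun z => (LamF e (ch x) (e.symm z) *ᵥ (D x).g j (ch x (e.symm z))) K)
      (e y) :=
    an_mulVecX (A := fun z => LamF e (ch x) z) (w := fun z => (D x).g j (ch x z))
      (fun k l => anX_LamF he ((D x).at' y hy) k l e he)
      (fun l => ((D x).anX hy j l) e he) K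
  exact ((anX_lineG hi ((D x).dom y hy)).pow' k).mul' (AnX.of_chart (f := fun z =>
    (LamF e (ch x) z *ᵥ (D x).g j (ch x z)) K) he h1)

/-- the second factor does not vanish identically -/
theorem LT.g_ne {x : X} (D : LT L u v x) {j₀ : Fin r}
    (hd : Dense {x : X | Nz L (ThS u (v j₀)) x}) {O : Set X} (hO : IsOpen O) {y : X}
    (hyO : y ∈ O) (hy : y ∈ D.V) : ∃ z ∈ O, z ∈ D.V ∧ D.g j₀ (ch x z) ≠ 0 := by
  obtain ⟨z, hz, hzd⟩ := hd.inter_open_nonempty (O ∩ D.V) (hO.inter D.isOpen) ⟨y, hyO, hy⟩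
  refine ⟨z, hz.1, hz.2, fun h0 => ?_⟩
  apply hzd (ix L x) (ch x) (D.at' z hz.2) (D.dom z hz.2)
  funext p
  show Th _ _ p.1 p.2 = 0
  rw [D.ten z hz.2, h0]
  simp

theorem LT.g_not_zero {x : X} (D : LT L u v x) {j₀ : Fin r}
    (hd : Dense {x : X | Nz L (ThS u (v j₀)) x}) {e : Chart 6 X} {y : X} (he : At e y)
    (hy : y ∈ D.V) : ∃ K, ¬ ∀ᶠ z in 𝓝 (e y), D.g j₀ (ch x (e.symm z)) K = 0 := by
  by_contra hcon
  push Not at hcon
  have h : ∀ᶠ z in 𝓝 (e y), ∀ K, D.g j₀ (ch x (e.symm z)) K = 0 := eventually_all.2 hcon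
  obtain ⟨O, hO, hOo, hyO⟩ := mem_nhds_iff.1
    (ev_of_chart (p := fun z => ∀ K, D.g j₀ (ch x z) K = 0) he h)
  obtain ⟨z, hzO, -, hz0⟩ := D.g_ne hd hOo hyO hy
  exact hz0 (funext fun K => hO hzO K)

include hu hv in
/-- the first factors of two local data are parallel -/
theorem tT_par {j₀ : Fin r} (hd : Dense {x : X | Nz L (ThS u (v j₀)) x}) {x x' : X} {y : X}
    (hy : y ∈ (D x).V) (hy' : y ∈ (D x').V) :
    ∀ᶠ z in 𝓝 y, ∀ k l, (D x).T (ch x z) k * (LamF (ch x) (ch x') z *ᵥ (D x').T (ch x' z)) l =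
      (D x).T (ch x z) l * (LamF (ch x) (ch x') z *ᵥ (D x').T (ch x' z)) k := by
  have he := (D x).at' y hy
  obtain ⟨K, hK⟩ := (D x).g_not_zero hd he hy
  have hTa : ∀ k, AnalyticAt ℂ (fun z => (D x).T (ch x ((ch x).symm z)) k) (ch x y) := fun k =>
    an_comp (((D x).primX hy) (ch x) he).an k
  have hva : ∀ k, AnalyticAt ℂ (fun z => tT D x' (ch x) ((ch x).symm z) k) (ch x y) := fun k =>
    anX_tT D hy' he k (ch x) he
  have hga : AnalyticAt ℂ (fun z => (D x).g j₀ (ch x ((ch x).symm z)) K) (ch x y) :=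
    ((D x).anX hy j₀ K) (ch x) he
  have hkey : ∀ᶠ z in 𝓝 y, ∀ I, (D x).T (ch x z) I * (D x).g j₀ (ch x z) K =
      tT D x' (ch x) z I * gT (m + m') D x' j₀ (ix L x) (ch x) z K := by
    filter_upwards [(D x).isOpen.mem_nhds hy, (D x').isOpen.mem_nhds hy'] with z hz hz' I
    rw [← (D x).ten z hz j₀ I K]
    exact ten_all hu hv D hz' ((D x).at' z hz) ((D x).dom z hz) j₀ I K
  have h1 : ∀ k l, ∀ᶠ z in 𝓝 (ch x y), (D x).T (ch x ((ch x).symm z)) k *
      tT D x' (ch x) ((ch x).symm z) l - (D x).T (ch x ((ch x).symm z)) l *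
      tT D x' (ch x) ((ch x).symm z) k = 0 := by
    intro k l
    refine (zero_or hga (((hTa k).mul (hva l)).sub ((hTa l).mul (hva k))) ?_).resolve_left hK
    filter_upwards [ev_chart he hkey] with z hz
    have h3 := hz k
    have h4 := hz l
    show (D x).g j₀ (ch x ((ch x).symm z)) K * ((D x).T (ch x ((ch x).symm z)) k *
      tT D x' (ch x) ((ch x).symm z) l - (D x).T (ch x ((ch x).symm z)) l *
      tT D x' (ch x) ((ch x).symm z) k) = 0
    linear_combination (tT D x' (ch x) ((ch x).symm z) l) * h3 -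
      (tT D x' (ch x) ((ch x).symm z) k) * h4
  refine ev_of_chart he ?_
  filter_upwards [eventually_all.2 fun k => eventually_all.2 fun l => h1 k l] with z hz k l
  exact sub_eq_zero.1 (hz k l)

include hu hv in
/-- **The line bundle of the first factor.** -/
theorem exists_WT {j₀ : Fin r} (hd : Dense {x : X | Nz L (ThS u (v j₀)) x}) :
    ∃ W : LineBundle 6 X X, (∀ x, W.U x = (D x).V) ∧
      ∀ x x' y, y ∈ (D x).V → y ∈ (D x').V → (D x).T (ch x y) =
        W.g x x' y • (LamF (ch x) (ch x') y *ᵥ (D x').T (ch x' y)) := by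
  classical
  obtain ⟨W, hW, h⟩ := MatData.glue (d := 6) (X := X) (K := FI 6)
    { U := fun x => (D x).V
      isOpen := fun x => (D x).isOpen
      mem := fun x => (D x).mem
      T := fun x y => (D x).T (ch x y)
      prim := fun x z hz => (D x).primX hz
      A := fun x x' y => LamF (ch x) (ch x') y
      A_an := fun x x' z hz hz' k l => anX_LamF ((D x).at' z hz) ((D x').at' z hz') k l
      A_one := fun x z hz => LamF_self ((D x).at' z hz)
      A_coc := fun x y w z h1 h2 h3 => LamF_comp ((D x).at' z h1) ((D y).at' z h2) ((D w).at' z h3)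
      par := fun x x' y hy hy' => tT_par hu hv D hd hy hy' }
  exact ⟨W, fun x => congrFun hW x, h⟩

/-- the first factors of two local data -/
theorem tT_tr {W : LineBundle 6 X X}
    (hW : ∀ x x' y, y ∈ (D x).V → y ∈ (D x').V → (D x).T (ch x y) =
        W.g x x' y • (LamF (ch x) (ch x') y *ᵥ (D x').T (ch x' y)))
    {x x' : X} {e : Chart 6 X} {y : X} (hy : y ∈ (D x).V) (hy' : y ∈ (D x').V) (he : At e y) :
    tT D x e y = W.g x x' y • tT D x' e y := by
  unfold tT
  rw [hW x x' y hy hy', Matrix.mulVec_smul, Matrix.mulVec_mulVec,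
    LamF_comp he ((D x).at' y hy) ((D x').at' y hy')]

theorem tT_prim {x : X} {e : Chart 6 X} {y : X} (hy : y ∈ (D x).V) (he : At e y) {c : X → ℂ}
    (hc : AnX (d := 6) c y) (hc0 : c y ≠ 0) :
    Prim (fun z => c (e.symm z) • tT D x e (e.symm z)) (e y) := by
  refine prim_twist ((D x).primX hy e he) (hc e he) (by rwa [e.left_inv he.2])
    (fun k l => anX_LamF he ((D x).at' y hy) k l e he)
    (B := fun z => LamF (ch x) e (e.symm z))
    (fun k l => anX_LamF ((D x).at' y hy) he k l e he) ?_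
  refine ev_chart (p := fun z => LamF e (ch x) z * LamF (ch x) e z = 1 ∧
    LamF (ch x) e z * LamF e (ch x) z = 1) he ?_
  filter_upwards [(D x).isOpen.mem_nhds hy, Vale.Agent.P301.H724.at_eventually he] with z h1 h2
  have h3 := (D x).at' z h1
  rw [LamF_comp h2 h3 h2, LamF_comp h3 h2 h3, LamF_self h2, LamF_self h3]
  exact ⟨rfl, rfl⟩

include hu hv in
/-- the second factors of two local data -/
theorem gT_tr {W : LineBundle 6 X X} (hWU : ∀ x, W.U x = (D x).V)
    (hW : ∀ x x' y, y ∈ (D x).V → y ∈ (D x').V → (D x).T (ch x y) =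
        W.g x x' y • (LamF (ch x) (ch x') y *ᵥ (D x').T (ch x' y)))
    {x x' : X} {i i' : ι} {e : Chart 6 X} {y : X} (hy : y ∈ (D x).V) (hy' : y ∈ (D x').V)
    (he : At e y) (hi : y ∈ L.U i) (hi' : y ∈ L.U i') (j : Fin r) :
    W.g x x' y • gT (m + m') D x j i e y = L.g i i' y ^ (m + m') • gT (m + m') D x' j i' e y := by
  have hWan : AnX (d := 6) (fun z => W.g x x' z) y := fun e he =>
    W.holo x x' e y he (by rwa [hWU]) (by rwa [hWU])
  have hp := tT_prim (c := fun _ => 1) D hy' he (fun e he => analyticAt_const) one_ne_zero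
  obtain ⟨I, hI⟩ := ne_iff.1 hp.ne
  have hTa : AnalyticAt ℂ (fun z => tT D x' e (e.symm z) I) (e y) := anX_tT D hy' he I e he
  funext K
  have h1 : ∀ᶠ z in 𝓝 (e y), W.g x x' (e.symm z) * gT (m + m') D x j i e (e.symm z) K -
      L.g i i' (e.symm z) ^ (m + m') * gT (m + m') D x' j i' e (e.symm z) K = 0 := by
    have h2 := zero_or hTa (((hWan.mul' (anX_gT D hy he hi (m + m') j K)) e he).sub
      ((((anX_lineG hi hi').pow' (m + m')).mul' (anX_gT D hy' he hi' (m + m') j K)) e he)) (by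
      refine ev_chart (p := fun z => tT D x' e z I * (W.g x x' z * gT (m + m') D x j i e z K -
        L.g i i' z ^ (m + m') * gT (m + m') D x' j i' e z K) = 0) he ?_
      filter_upwards [(D x).isOpen.mem_nhds hy, (D x').isOpen.mem_nhds hy',
        (L.isOpen i).mem_nhds hi, (L.isOpen i').mem_nhds hi',
        Vale.Agent.P301.H724.at_eventually he] with z h1 h2 h3 h4 h5
      have h6 := ten_all hu hv D h1 h5 h3 j I K
      have h7 := ten_all hu hv D h2 h5 h4 j I K
      have h8 : Th (u i e (e z)) (v j i e (e z)) I K =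
          L.g i i' z ^ (m + m') * Th (u i' e (e z)) (v j i' e (e z)) I K :=
        congrFun ((isSec_Th hu (hv j)).chL i i' e z h5 h3 h4) (I, K)
      rw [h6, h7, tT_tr D hW h1 h2 h5] at h8
      simp only [Pi.smul_apply, smul_eq_mul] at h8
      linear_combination h8)
    refine h2.resolve_left fun h3 => hI ?_
    filter_upwards [h3] with z hz
    show ((1 : ℂ) • tT D x' e (e.symm z)) I = 0
    rw [one_smul]
    exact hz
  have h2 := h1.self_of_nhds
  rw [e.left_inv he.2] at h2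
  exact sub_eq_zero.1 h2

end loc

end Vale.Agent.P301.H395
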